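import Vale.Agent.P371.Cal.Tools
import Vale.Agent.P371.Shell.TrPow

/-!
# P371 (calibration): `tr (R W Rᵀ) ^ p ≤ tr W ^ p` for a contraction `R`
-/

open Matrix Finset

namespace Vale.Agent.P371.Cal

/-- Jensen's inequality with weights of total mass at most one. -/
lemma rpow_sum_le {ι : Type*} [Fintype ι] {w z : ι → ℝ} (hw : ∀ i, 0 ≤ w i)
    (hw1 : ∑ i, w i ≤ 1) (hz : ∀ i, 0 ≤ z i) {p : ℝ} (hp : 1 ≤ p) :
    (∑ i, w i * z i) ^ p ≤ ∑ i, w i * z i ^ p := by
  have h := Real.rpow_arith_mean_le_arith_mean_rpow (univ : Finset (Option ι))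
    (fun o => o.elim (1 - ∑ i, w i) w) (fun o => o.elim 0 z)
    (fun o _ => by cases o with
      | none => exact sub_nonneg.2 hw1
      | some i => exact hw i)
    (by simp [Fintype.sum_option])
    (fun o _ => by cases o with
      | none => exact le_rfl
      | some i => exact hz i) hp
  simpa [Fintype.sum_option, Real.zero_rpow (by linarith : p ≠ 0)] using h

lemma trPow_conj_le {N m : ℕ} {p : ℝ} (hp : 1 ≤ p) {W : Matrix (Fin m) (Fin m) ℝ}
    (hW : W.PosSemidef) {R : Matrix (Fin N) (Fin m) ℝ} (hR : (1 - Rᵀ * R).PosSemidef) :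
    trPow p (R * W * Rᵀ) ≤ trPow p W := by
  have hV := posSemidef_conj hW R
  rw [trPow_eq hV.1, trPow_eq hW.1]
  obtain ⟨U, hU1, hU2, hVU⟩ := exists_diag hV.1
  obtain ⟨O, hO1, hO2, hWO⟩ := exists_diag hW.1
  set v := hV.1.eigenvalues
  set w := hW.1.eigenvalues
  set T := Uᵀ * R * O with hT
  have hR' : (1 - R * Rᵀ).PosSemidef := by
    have e : 1 - R * Rᵀ = (1 - R * Rᵀ) * (1 - R * Rᵀ)ᵀ + R * (1 - Rᵀ * R) * Rᵀ := by
      rw [transpose_sub, transpose_one, transpose_mul, transpose_transpose]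
      simp only [Matrix.sub_mul, Matrix.mul_sub, Matrix.one_mul, Matrix.mul_one, Matrix.mul_assoc]
      abel
    rw [e]
    refine PosSemidef.add ?_ (posSemidef_conj hR R)
    have h := posSemidef_self_mul_conjTranspose (1 - R * Rᵀ)
    rwa [conjTranspose_eq_transpose_of_trivial] at h
  have h1 : ∀ i, v i = ∑ μ, T i μ ^ 2 * w μ := by
    intro i
    have e : T * diagonal w * Tᵀ = diagonal v := by
      calc T * diagonal w * Tᵀ = Uᵀ * (R * (O * diagonal w * Oᵀ) * Rᵀ) * U := by
            rw [hT, transpose_mul, transpose_mul, transpose_transpose]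
            simp only [Matrix.mul_assoc]
        _ = Uᵀ * (U * diagonal v * Uᵀ) * U := by rw [← hWO, ← hVU]
        _ = Uᵀ * U * diagonal v * (Uᵀ * U) := by simp only [Matrix.mul_assoc]
        _ = diagonal v := by rw [hU1, Matrix.one_mul, Matrix.mul_one]
    have := congrFun (congrFun e i) i
    rw [diagonal_apply_eq, mul_apply] at this
    rw [← this]
    refine sum_congr rfl fun μ _ => ?_
    rw [mul_diagonal, transpose_apply]
    ring
  have hrow : ∀ i, ∑ μ, T i μ ^ 2 ≤ 1 := by
    intro i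
    have h := (posSemidef_conj hR' Uᵀ).diag_nonneg (i := i)
    rw [transpose_transpose, Matrix.mul_sub, Matrix.sub_mul, Matrix.mul_one, hU1,
      show Uᵀ * (R * Rᵀ) * U = T * Tᵀ by
        rw [hT, transpose_mul, transpose_mul, transpose_transpose]
        simp only [Matrix.mul_assoc]
        rw [← Matrix.mul_assoc O, hO2, Matrix.one_mul],
      Matrix.sub_apply, one_apply_eq, mul_apply] at h
    simp only [transpose_apply, ← sq] at h
    linarith
  have hcol : ∀ μ, ∑ i, T i μ ^ 2 ≤ 1 := by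
    intro μ
    have h := (posSemidef_conj hR Oᵀ).diag_nonneg (i := μ)
    rw [transpose_transpose, Matrix.mul_sub, Matrix.sub_mul, Matrix.mul_one, hO1,
      show Oᵀ * (Rᵀ * R) * O = Tᵀ * T by
        rw [hT, transpose_mul, transpose_mul, transpose_transpose]
        simp only [Matrix.mul_assoc]
        rw [← Matrix.mul_assoc U, hU2, Matrix.one_mul],
      Matrix.sub_apply, one_apply_eq, mul_apply] at h
    simp only [transpose_apply, ← sq] at h
    linarith
  calc ∑ i, v i ^ p ≤ ∑ i, ∑ μ, T i μ ^ 2 * w μ ^ p := sum_le_sum fun i _ => by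
        rw [h1 i]
        exact rpow_sum_le (fun μ => sq_nonneg _) (hrow i) hW.eigenvalues_nonneg hp
    _ = ∑ μ, (∑ i, T i μ ^ 2) * w μ ^ p := by
        rw [sum_comm]; exact sum_congr rfl fun μ _ => (sum_mul _ _ _).symm
    _ ≤ ∑ μ, w μ ^ p := sum_le_sum fun μ _ =>
        mul_le_of_le_one_left (Real.rpow_nonneg (hW.eigenvalues_nonneg μ) _) (hcol μ)

end Vale.Agent.P371.Cal
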