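import Mathlib

/-!
# P371 (calibration): scalar integrals
-/

open MeasureTheory Set Filter Real
open scoped Topology

namespace Vale.Agent.P371.Cal

/-- `s ^ (q - 1) u / (u + s)`. -/
noncomputable def kern (q u s : ℝ) : ℝ := s ^ (q - 1) * (u / (u + s))

/-- Its integral for `u = 1`. -/
noncomputable def kconst (q : ℝ) : ℝ := ∫ s in Ioi (0 : ℝ), kern q 1 s

variable {q u : ℝ}

lemma kern_nonneg (hu : 0 ≤ u) {s : ℝ} (hs : 0 < s) : 0 ≤ kern q u s := by
  unfold kern; positivity

lemma measurable_kern : Measurable (kern q u) := by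
  unfold kern; fun_prop

lemma integrableOn_kern (hq : 0 < q) (hq1 : q < 1) (hu : 0 ≤ u) :
    IntegrableOn (kern q u) (Ioi 0) := by
  rw [← Ioc_union_Ioi_eq_Ioi zero_le_one]
  refine IntegrableOn.union ?_ ?_
  · have h : IntegrableOn (fun s : ℝ => s ^ (q - 1)) (Ioc 0 1) := by
      rw [← intervalIntegrable_iff_integrableOn_Ioc_of_le zero_le_one]
      exact intervalIntegral.intervalIntegrable_rpow' (by linarith)
    refine h.mono' measurable_kern.aestronglyMeasurable ?_
    filter_upwards [ae_restrict_mem measurableSet_Ioc] with s hs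
    rw [Real.norm_eq_abs, abs_of_nonneg (kern_nonneg hu hs.1), kern]
    exact mul_le_of_le_one_right (rpow_nonneg hs.1.le _)
      ((div_le_one (by linarith [hs.1])).2 (by linarith [hs.1]))
  · have h : IntegrableOn (fun s : ℝ => u * s ^ (q - 2)) (Ioi 1) :=
      (integrableOn_Ioi_rpow_of_lt (by linarith) one_pos).const_mul u
    refine h.mono' measurable_kern.aestronglyMeasurable ?_
    filter_upwards [ae_restrict_mem measurableSet_Ioi] with s hs
    have hs0 : 0 < s := one_pos.trans hs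
    rw [Real.norm_eq_abs, abs_of_nonneg (kern_nonneg hu hs0), kern]
    calc s ^ (q - 1) * (u / (u + s)) ≤ s ^ (q - 1) * (u / s) :=
          mul_le_mul_of_nonneg_left (div_le_div_of_nonneg_left hu hs0 (by linarith))
            (rpow_nonneg hs0.le _)
      _ = u * s ^ (q - 2) := by
          rw [show q - 2 = q - 1 - 1 by ring, rpow_sub_one hs0.ne' (q - 1)]
          ring

lemma integral_kern (hq : 0 < q) (hu : 0 ≤ u) :
    ∫ s in Ioi (0 : ℝ), kern q u s = u ^ q * kconst q := by
  rcases hu.eq_or_lt with rfl | hu0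
  · simp [kern, zero_rpow hq.ne']
  have h := integral_comp_mul_left_Ioi (kern q u) 0 hu0
  rw [mul_zero, smul_eq_mul] at h
  have e : ∀ r ∈ Ioi (0 : ℝ), kern q u (u * r) = u ^ (q - 1) * kern q 1 r := by
    intro r hr
    have hr0 : (0 : ℝ) < r := hr
    rw [kern, kern, mul_rpow hu0.le hr0.le, show u + u * r = u * (1 + r) by ring,
      div_mul_eq_div_div, div_self hu0.ne']
    ring
  rw [setIntegral_congr_fun measurableSet_Ioi e, integral_const_mul] at h
  rw [rpow_sub_one hu0.ne'] at h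
  have : u * (u ^ q / u * kconst q) = u * (u⁻¹ * ∫ s in Ioi (0 : ℝ), kern q u s) := by
    rw [kconst, h]
  rw [← mul_assoc, ← mul_assoc, mul_div_cancel₀ _ hu0.ne', mul_inv_cancel₀ hu0.ne', one_mul]
    at this
  exact this.symm

lemma intervalIntegral_kern_le (hq : 0 < q) (hq1 : q < 1) (hu : 0 ≤ u) {ε S : ℝ} (hε : 0 < ε)
    (hεS : ε ≤ S) : ∫ s in ε..S, kern q u s ≤ u ^ q * kconst q := by
  rw [intervalIntegral.integral_of_le hεS, ← integral_kern hq hu]
  refine setIntegral_mono_set (integrableOn_kern hq hq1 hu) ?_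
    (HasSubset.Subset.eventuallyLE fun s hs => hε.trans hs.1)
  filter_upwards [ae_restrict_mem measurableSet_Ioi] with s hs using kern_nonneg hu hs

lemma intervalIntegral_kern_nonneg (hu : 0 ≤ u) {ε S : ℝ} (hε : 0 < ε) (hεS : ε ≤ S) :
    0 ≤ ∫ s in ε..S, kern q u s :=
  intervalIntegral.integral_nonneg hεS fun _ hs => kern_nonneg hu (hε.trans_le hs.1)

lemma kconst_pos (hq : 0 < q) (hq1 : q < 1) : 0 < kconst q := by
  have h1 : 0 < ∫ s in (1 : ℝ)..2, kern q 1 s := by
    refine intervalIntegral.intervalIntegral_pos_of_pos_on ?_ (fun s hs => ?_) one_lt_two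
    · refine ((integrableOn_kern hq hq1 zero_le_one).mono_set ?_).intervalIntegrable
      rw [uIcc_of_le one_le_two]
      exact fun s hs => lt_of_lt_of_le one_pos hs.1
    · have : 0 < s := one_pos.trans hs.1
      unfold kern; positivity
  have h2 := intervalIntegral_kern_le hq hq1 zero_le_one one_pos one_le_two (u := 1)
  rw [one_rpow, one_mul] at h2
  linarith

lemma tendsto_intervalIntegral_kern (hq : 0 < q) (hq1 : q < 1) (hu : 0 ≤ u) :
    Tendsto (fun n : ℕ => ∫ s in (1 / ((n : ℝ) + 1))..((n : ℝ) + 1), kern q u s) atTop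
      (𝓝 (u ^ q * kconst q)) := by
  rw [← integral_kern hq hu]
  have hi := integrableOn_kern hq hq1 hu
  have h3 : Tendsto (fun n : ℕ => ∫ s in Ioc (1 / ((n : ℝ) + 1)) ((n : ℝ) + 1), kern q u s) atTop
      (𝓝 (∫ s in ⋃ n : ℕ, Ioc (1 / ((n : ℝ) + 1)) ((n : ℝ) + 1), kern q u s)) := by
    refine tendsto_setIntegral_of_monotone (fun n => measurableSet_Ioc) (fun a b hab => ?_)
      (hi.mono_set ?_)
    · refine Ioc_subset_Ioc ?_ ?_
      · exact one_div_le_one_div_of_le (by positivity) (by gcongr)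
      · gcongr
    · exact iUnion_subset fun n s hs => lt_trans (by positivity) hs.1
  have hU : (⋃ n : ℕ, Ioc (1 / ((n : ℝ) + 1)) ((n : ℝ) + 1)) = Ioi 0 := by
    refine Subset.antisymm (iUnion_subset fun n s hs => lt_trans (by positivity) hs.1) fun s hs => ?_
    have hs0 : (0 : ℝ) < s := hs
    obtain ⟨n, hn⟩ := exists_nat_gt (max s (1 / s))
    refine mem_iUnion.2 ⟨n, ?_, by linarith [le_max_left s (1 / s)]⟩
    rw [div_lt_iff₀ (by positivity)]
    have : 1 / s < n := lt_of_le_of_lt (le_max_right _ _) hn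
    rw [div_lt_iff₀ hs0] at this
    nlinarith
  rw [hU] at h3
  refine h3.congr fun n => (intervalIntegral.integral_of_le ?_).symm
  calc 1 / ((n : ℝ) + 1) ≤ 1 := (div_le_one (by positivity)).2 (by simp)
    _ ≤ (n : ℝ) + 1 := by simp

lemma integral_one_sub_sq_rpow (hq : 0 < q) :
    ∫ t in (-1 : ℝ)..1, (1 - t ^ 2) ^ q = √π * Gamma (q + 1) / Gamma (q + 3 / 2) := by
  have h1 : ∫ t in (-1 : ℝ)..1, (1 - t ^ 2) ^ q =
      2 * ∫ y in (0 : ℝ)..1, (1 - (2 * y - 1) ^ 2) ^ q := by
    have := intervalIntegral.mul_integral_comp_mul_sub (f := fun t : ℝ => (1 - t ^ 2) ^ q)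
      (a := 0) (b := 1) (c := 2) (d := 1)
    norm_num at this
    linarith
  have h2 : ∫ y in (0 : ℝ)..1, (1 - (2 * y - 1) ^ 2) ^ q =
      4 ^ q * ∫ y in Ioo (0 : ℝ) 1, y ^ (q + 1 - 1) * (1 - y) ^ (q + 1 - 1) := by
    rw [intervalIntegral.integral_of_le zero_le_one, integral_Ioc_eq_integral_Ioo,
      ← integral_const_mul]
    refine setIntegral_congr_fun measurableSet_Ioo fun y hy => ?_
    have h4 : (0 : ℝ) ≤ 1 - y := by linarith [hy.2]
    simp only [add_sub_cancel_right]
    rw [show 1 - (2 * y - 1) ^ 2 = 4 * (y * (1 - y)) by ring,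
      mul_rpow (by norm_num) (mul_nonneg hy.1.le h4), mul_rpow hy.1.le h4]
  have h3 : ∫ y in Ioo (0 : ℝ) 1, y ^ (q + 1 - 1) * (1 - y) ^ (q + 1 - 1) =
      Gamma (q + 1) * Gamma (q + 1) / Gamma (q + 1 + (q + 1)) := by
    rw [← ProbabilityTheory.beta, ProbabilityTheory.beta_eq_betaIntegralReal _ _ (by linarith)
      (by linarith), Complex.betaIntegral, intervalIntegral.integral_of_le (by norm_num),
      ← integral_Ioc_eq_integral_Ioo, ← RCLike.re_to_complex, ← integral_re]
    · refine setIntegral_congr_fun measurableSet_Ioc fun x ⟨hx1, hx2⟩ => ?_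
      norm_cast
      rw [← Complex.ofReal_cpow, ← Complex.ofReal_cpow, RCLike.re_to_complex,
        Complex.re_mul_ofReal, Complex.ofReal_re]
      all_goals linarith
    convert! Complex.betaIntegral_convergent (u := ((q + 1 : ℝ) : ℂ)) (v := ((q + 1 : ℝ) : ℂ))
      (by simp; linarith) (by simp; linarith)
    rw [intervalIntegrable_iff_integrableOn_Ioc_of_le (by simp), IntegrableOn]
  rw [h1, h2, h3]
  have hd := Gamma_mul_Gamma_add_half (q + 1)
  rw [show q + 1 + 1 / 2 = q + 3 / 2 by ring, two_mul] at hd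
  have g1 := Gamma_pos_of_pos (show 0 < q + 1 by linarith)
  have g2 := Gamma_pos_of_pos (show 0 < q + 3 / 2 by linarith)
  have g3 := Gamma_pos_of_pos (show 0 < q + 1 + (q + 1) by linarith)
  have h4 : (0 : ℝ) < 4 ^ q := by positivity
  have e1 : (2 : ℝ) ^ (1 - (q + 1 + (q + 1))) = 1 / (2 * 4 ^ q) := by
    rw [show 1 - (q + 1 + (q + 1)) = -(1 + 2 * q) by ring, rpow_neg two_pos.le,
      rpow_add two_pos, rpow_one, rpow_mul two_pos.le]
    norm_num
  rw [e1] at hd
  field_simp at hd ⊢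
  linear_combination hd

end Vale.Agent.P371.Cal
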