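import Vale.Agent.P371.Cal.Step
import Vale.Agent.P371.Cal.Scalar
import Vale.Agent.P371.Cal.Contraction
import Vale.Agent.P371.Glue.LiftBound
import Vale.Agent.P371.Shell.Matrix

/-!
# P371 (calibration): a lifted Riccati path costs at least the one-bound-state amount
-/

open Matrix Finset MeasureTheory Filter
open scoped Topology

namespace Vale.Agent.P371.Cal

variable {N : ℕ} {L : Fin N → ℝ}

lemma trPow_smul {m : ℕ} {c p : ℝ} (hc : 0 ≤ c) {A : Matrix (Fin m) (Fin m) ℝ}
    (hA : A.PosSemidef) : trPow p (c • A) = c ^ p * trPow p A := by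
  rw [trPow_eq_of_trace (hA.smul hc).1 (fun i => c * hA.1.eigenvalues i) (fun P => ?_) p,
    trPow_eq hA.1, mul_sum]
  · exact sum_congr rfl fun i _ => Real.mul_rpow hc (hA.eigenvalues_nonneg i)
  · have e : Polynomial.aeval (c • A) P =
        Polynomial.aeval A (P.comp (Polynomial.C c * Polynomial.X)) := by
      rw [Polynomial.aeval_comp, map_mul, Polynomial.aeval_C, Polynomial.aeval_X,
        Algebra.smul_def]
    rw [e, re_trace_aeval hA.1]
    simp

/-- The bound at one point of the path. -/
lemma integral_fint_le {m : ℕ} {M : Matrix (Fin N) (Fin N) ℝ} (h : Inside L M)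
    {W : Matrix (Fin m) (Fin m) ℝ} (hW : W.PosSemidef) {R : Matrix (Fin N) (Fin m) ℝ}
    (hR : (1 - Rᵀ * R).PosSemidef) {q ε S K E : ℝ} (hq : 0 < q) (hq1 : q < 1) (hε : 0 < ε)
    (hε1 : ε ≤ 1) (hεS : ε ≤ S) (hS : ∀ i, L i ^ 2 ≤ S) (hK : ∀ i, L i ^ 2 + 1 ≤ K ^ 2)
    (hK0 : 0 < K)
    (hE1 : (∑ i, L i ^ 2 * (M * M) i i + (q / (q + 1) * (R * W * Rᵀ).trace) ^ 2) / q ≤ E)
    (hE2 : (∑ i, L i ^ 2 + q / (q + 1) * (R * W * Rᵀ).trace +
      2 * N * (|Real.log (2 * K)| + 1)) / q ≤ E)
    (hF : ContinuousOn (fint q L M (R * W * Rᵀ)) (Set.Icc ε S)) :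
    ∫ s in ε..S, fint q L M (R * W * Rᵀ) s ≤
      kconst q * (1 / q * (q / (q + 1)) ^ (q + 1) * trPow (q + 1) W) +
        E * (S ^ (q - 1) + ε ^ q) := by
  set c := q / (q + 1) with hc
  have hc0 : 0 ≤ c := by positivity
  have hV : (R * W * Rᵀ).PosSemidef := posSemidef_conj hW R
  set Z := c • (R * W * Rᵀ) with hZdef
  have hZ : Z.PosSemidef := hV.smul hc0
  set z := hZ.1.eigenvalues with hzdef
  have hz : ∀ i, 0 ≤ z i := hZ.eigenvalues_nonneg
  have hVZ : ((q + 1) / q) • Z = R * W * Rᵀ := by
    rw [hZdef, smul_smul, hc, div_mul_div_comm, mul_comm q, div_self (by positivity), one_smul]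
  have hsum : ∑ i, z i = c * (R * W * Rᵀ).trace := by
    have := hZ.1.trace_eq_sum_eigenvalues
    simp only [RCLike.ofReal_real_eq_id, id_eq] at this
    rw [← this, hZdef, trace_smul, smul_eq_mul]
  have hd : ∀ s ∈ Set.Icc ε S, HasDerivAt (psi q L M z) (psi' q L M z s) s := fun s hs =>
    hasDerivAt_psi h hq hz (hε.trans_le hs.1)
  have hk : ∀ i, IntervalIntegrable (fun s => z i * kern q (z i) s) volume ε S := fun i => by
    refine (((integrableOn_kern hq hq1 (hz i)).mono_set ?_).intervalIntegrable).const_mul _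
    rw [Set.uIcc_of_le hεS]
    exact fun s hs => hε.trans_le hs.1
  have hi1 : IntervalIntegrable (fun s => fint q L M (R * W * Rᵀ) s + psi' q L M z s) volume ε S :=
    (hF.add (continuousOn_psi' h hε hq hz)).intervalIntegrable_of_Icc hεS
  have h1 := intervalIntegral.integral_mono_on hεS hi1
    ((IntervalIntegrable.sum univ fun i _ => hk i).const_mul (1 / q)) (fun s hs => by
      have := fint_add_psi'_le h hq (hε.trans_le hs.1) hZ
      rw [hVZ] at this
      refine this.trans_eq ?_
      simp only [Finset.sum_apply, kern]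
      rw [mul_sum]
      congr 1
      exact sum_congr rfl fun i _ => by rw [hzdef]; ring)
  rw [intervalIntegral.integral_add (hF.intervalIntegrable_of_Icc hεS)
    ((continuousOn_psi' h hε hq hz).intervalIntegrable_of_Icc hεS),
    intervalIntegral.integral_eq_sub_of_hasDerivAt (fun s hs => hd s (by
      rwa [Set.uIcc_of_le hεS] at hs))
      ((continuousOn_psi' h hε hq hz).intervalIntegrable_of_Icc hεS),
    intervalIntegral.integral_const_mul] at h1
  simp only [Finset.sum_apply] at h1
  rw [intervalIntegral.integral_finsetSum fun i _ => hk i] at h1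
  simp only [intervalIntegral.integral_const_mul] at h1
  have h2 : ∑ i, z i * ∫ s in ε..S, kern q (z i) s ≤ kconst q * (c ^ (q + 1) * trPow (q + 1) W) := by
    refine le_trans (sum_le_sum fun i _ => mul_le_mul_of_nonneg_left
      (intervalIntegral_kern_le hq hq1 (hz i) hε hεS) (hz i)) ?_
    have e : ∀ i, z i * (z i ^ q * kconst q) = kconst q * z i ^ (q + 1) := fun i => by
      rw [Real.rpow_add_one' (hz i) (by positivity)]; ring
    simp only [e, ← mul_sum]
    refine mul_le_mul_of_nonneg_left ?_ (kconst_pos hq hq1).le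
    rw [← trPow_eq hZ.1, hZdef, trPow_smul hc0 hV]
    exact mul_le_mul_of_nonneg_left (trPow_conj_le (by linarith) hW hR) (by positivity)
  have hS0 : 0 < S := hε.trans_le hεS
  have h3 := neg_le_psi h hq hz hS0 hS
  have h4 := psi_le h hq hz hε hε1 hK hK0
  rw [hsum] at h3 h4
  have h5 : S ^ (q - 1) / q * (∑ i, L i ^ 2 * (M * M) i i + (c * (R * W * Rᵀ).trace) ^ 2) ≤
      E * S ^ (q - 1) := by
    refine le_trans (le_of_eq ?_) (mul_le_mul_of_nonneg_right hE1 (Real.rpow_nonneg hS0.le _))
    ring
  have h6 : ε ^ q / q * (∑ i, L i ^ 2 + c * (R * W * Rᵀ).trace +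
      2 * N * (|Real.log (2 * K)| + 1)) ≤ E * ε ^ q := by
    refine le_trans (le_of_eq ?_) (mul_le_mul_of_nonneg_right hE2 (Real.rpow_nonneg hε.le _))
    ring
  have h7 := mul_le_mul_of_nonneg_left h2 (show (0 : ℝ) ≤ 1 / q by positivity)
  rw [mul_add E]
  linarith

/-- The integral of the calibration along a path from `L` to `-L`. -/
lemma integral_path (hL : ∀ i, 0 < L i) {a b : ℝ} (hab : a ≤ b)
    {M K : ℝ → Matrix (Fin N) (Fin N) ℝ} (hM : ∀ x ∈ Set.Icc a b, Inside L (M x))
    (hK : ContinuousOn K (Set.Icc a b))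
    (hd : ∀ x ∈ Set.Icc a b, HasMDeriv M (-K x) (Set.Icc a b) x)
    (hMa : M a = diagonal L) (hMb : M b = -diagonal L) {s : ℝ} (hs : 0 < s) :
    ∫ x in a..b, ((K x).trace - s * gam L (M x) s (K x)) =
      ∑ i, ∫ t in (-1 : ℝ)..1, L i * (L i ^ 2 * (1 - t ^ 2) / (L i ^ 2 * (1 - t ^ 2) + s)) := by
  have hMc : ContinuousOn M (Set.Icc a b) := fun x hx =>
    tendsto_pi_nhds.2 fun i => tendsto_pi_nhds.2 fun j => (hd x hx i j).continuousWithinAt
  have h11 : (-1 : ℝ) ≤ 1 := by norm_num
  set Kg : ℝ → Matrix (Fin N) (Fin N) ℝ := Set.IccExtend hab ((Set.Icc a b).domRestrict K)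
  set Mg : ℝ → Matrix (Fin N) (Fin N) ℝ := Set.IccExtend hab ((Set.Icc a b).domRestrict M)
  have hKg : Continuous Kg := (continuousOn_iff_continuous_domRestrict.1 hK).Icc_extend'
  have hMg : Continuous Mg := (continuousOn_iff_continuous_domRestrict.1 hMc).Icc_extend'
  have eK : ∀ x ∈ Set.Icc a b, Kg x = K x := fun x hx => Set.IccExtend_of_mem hab _ hx
  have eM : ∀ x ∈ Set.Icc a b, Mg x = M x := fun x hx => Set.IccExtend_of_mem hab _ hx
  have hin : ∀ x, Inside L (Mg x) := fun x => by
    simp only [Mg, Set.IccExtend, Function.comp_apply, Set.domRestrict_apply]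
    exact hM _ (Set.projIcc a b hab x).2
  set ct : ℝ → ℝ := fun t => (Set.projIcc (-1 : ℝ) 1 h11 t : ℝ)
  have hct : Continuous ct := continuous_subtype_val.comp continuous_projIcc
  set J : ℝ → ℝ → ℝ := fun x t =>
    (Kg x * ((bmat L (Mg x) s (ct t))⁻¹ * (bmat L (Mg x) s (ct t))⁻¹)).trace
  have hJ : Continuous (Function.uncurry J) := by
    have hB : Continuous fun p : ℝ × ℝ => bmat L (Mg p.1) s (ct p.2) := by
      unfold bmat
      exact continuous_const.sub ((hct.comp continuous_snd).smul (hMg.comp continuous_fst))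
    have hBi : Continuous fun p : ℝ × ℝ => (bmat L (Mg p.1) s (ct p.2))⁻¹ :=
      continuous_iff_continuousAt.2 fun p => (continuousAt_inv_of_det_ne_zero
        (bmat_det_pos (hin p.1) hs (Set.projIcc _ _ h11 p.2).2).ne').comp
          (f := fun p : ℝ × ℝ => bmat L (Mg p.1) s (ct p.2)) hB.continuousAt
    exact ((hKg.comp continuous_fst).mul (hBi.mul hBi)).matrix_trace
  have eJ : ∀ x ∈ Set.Icc a b, ∀ t ∈ Set.Icc (-1 : ℝ) 1,
      J x t = (K x * ((bmat L (M x) s t)⁻¹ * (bmat L (M x) s t)⁻¹)).trace := by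
    intro x hx t ht
    simp only [J, ct, eK x hx, eM x hx, Set.projIcc_of_mem h11 ht]
  have hgam : ∀ x ∈ Set.Icc a b, gam L (M x) s (K x) = 1 / 2 * ∫ t in (-1 : ℝ)..1, J x t := by
    intro x hx
    unfold gam
    congr 1
    refine intervalIntegral.integral_congr fun t ht => ?_
    rw [Set.uIcc_of_le h11] at ht
    exact (eJ x hx t ht).symm
  have hJx : Continuous fun x => ∫ t in (-1 : ℝ)..1, J x t :=
    intervalIntegral.continuous_parametric_intervalIntegral_of_continuous' hJ _ _
  have hswap : ∫ x in a..b, ∫ t in (-1 : ℝ)..1, J x t = ∫ t in (-1 : ℝ)..1, ∫ x in a..b, J x t :=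
    intervalIntegral_intervalIntegral_swap ((hJ.continuousOn.integrableOn_compact
      (isCompact_uIcc.prod isCompact_uIcc)).mono_set
        (Set.prod_mono Set.uIoc_subset_uIcc Set.uIoc_subset_uIcc))
  -- the derivative along the path
  set D := diagonal fun i => (aent L s i)⁻¹ with hD
  have hflow : ∀ t ∈ Set.Icc (-1 : ℝ) 1, ∫ x in a..b, J x t =
      ∑ i, L i / aent L s i * ((aent L s i - t * L i)⁻¹ + (aent L s i + t * L i)⁻¹) := by
    intro t ht
    set g : ℝ → ℝ := fun x => (D * M x * (bmat L (M x) s t)⁻¹).trace with hg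
    have hgd : ∀ x ∈ Set.Icc a b, HasDerivWithinAt g (-J x t) (Set.Icc a b) x := by
      intro x hx
      have hB : HasMDeriv (fun y => bmat L (M y) s t) (-(t • -K x)) (Set.Icc a b) x := fun i j => by
        simpa [bmat] using ((hd x hx i j).const_mul t).const_sub (diagonal (aent L s) i j)
      have hdet := bmat_det_pos (hM x hx) hs ht
      refine (((hasMDeriv_const D _ x).mul (hd x hx)).mul (hB.inv hdet.ne')).trace.congr_deriv ?_
      rw [eJ x hx t ht]
      set B := bmat L (M x) s t with hBdef
      have hu : IsUnit B.det := isUnit_iff_ne_zero.2 hdet.ne'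
      have hAB : diagonal (aent L s) = B + t • M x := by rw [hBdef, bmat]; simp
      have hDA : D * diagonal (aent L s) = 1 := by
        rw [hD, diagonal_mul_diagonal, ← diagonal_one]
        congr 1; funext i; exact inv_mul_cancel₀ (aent_pos hs i).ne'
      calc ((0 * M x + D * -K x) * B⁻¹ + D * M x * -(B⁻¹ * -(t • -K x) * B⁻¹)).trace
          = -(D * ((1 : Matrix (Fin N) (Fin N) ℝ) * (K x * B⁻¹) +
              t • (M x * B⁻¹ * (K x * B⁻¹)))).trace := by
            rw [← trace_neg]
            congr 1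
            simp only [Matrix.zero_mul, zero_add, Matrix.one_mul, Matrix.mul_add, Matrix.smul_mul,
              Matrix.mul_smul, Matrix.mul_neg, Matrix.neg_mul, smul_neg, neg_neg, neg_add,
              Matrix.mul_assoc]
        _ = -(D * ((B + t • M x) * B⁻¹ * (K x * B⁻¹))).trace := by
            rw [Matrix.add_mul B, Matrix.smul_mul, mul_nonsing_inv _ hu, Matrix.add_mul,
              Matrix.smul_mul]
        _ = -(K x * (B⁻¹ * B⁻¹)).trace := by
            rw [← hAB, Matrix.mul_assoc (diagonal _), ← Matrix.mul_assoc D, hDA, Matrix.one_mul,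
              trace_mul_comm, Matrix.mul_assoc]
    have hJt : Continuous fun x => J x t := hJ.comp (continuous_id.prodMk continuous_const)
    have e : ∫ x in a..b, -J x t = g b - g a :=
      intervalIntegral.integral_eq_sub_of_hasDeriv_right_of_le hab
        (fun x hx => (hgd x hx).continuousWithinAt) (fun x hx =>
          ((hgd x (Set.Ioo_subset_Icc_self hx)).hasDerivAt
            (Icc_mem_nhds hx.1 hx.2)).hasDerivWithinAt) (hJt.neg.intervalIntegrable _ _)
    rw [intervalIntegral.integral_neg] at e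
    have hval : ∀ (σ : ℝ), σ = 1 ∨ σ = -1 → (D * (σ • diagonal L) *
        (bmat L (σ • diagonal L) s t)⁻¹).trace =
        ∑ i, σ * L i / aent L s i * (aent L s i - t * (σ * L i))⁻¹ := by
      intro σ hσ
      have hne : ∀ i, aent L s i - t * (σ * L i) ≠ 0 := by
        intro i
        have := lt_aent hL hs i
        have hLi := hL i
        rcases hσ with rfl | rfl <;> nlinarith [ht.1, ht.2]
      have e2 : bmat L (σ • diagonal L) s t = diagonal fun i => aent L s i - t * (σ * L i) := by
        rw [bmat, ← diagonal_smul, ← diagonal_smul, ← diagonal_sub]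
        rfl
      rw [e2, inv_eq_right_inv (B := diagonal fun i => (aent L s i - t * (σ * L i))⁻¹) (by
        rw [diagonal_mul_diagonal, ← diagonal_one]
        congr 1; funext i; exact mul_inv_cancel₀ (hne i))]
      rw [hD, ← diagonal_smul, diagonal_mul_diagonal, diagonal_mul_diagonal, trace_diagonal]
      refine sum_congr rfl fun i _ => ?_
      simp only [Pi.smul_apply, smul_eq_mul]
      ring
    have ga : g a = ∑ i, L i / aent L s i * (aent L s i - t * L i)⁻¹ := by
      simpa [hg, hMa] using hval 1 (Or.inl rfl)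
    have gb : g b = -∑ i, L i / aent L s i * (aent L s i + t * L i)⁻¹ := by
      have := hval (-1) (Or.inr rfl)
      rw [neg_one_smul] at this
      simp only [hg, hMb, this, ← sum_neg_distrib]
      exact sum_congr rfl fun i _ => by ring
    simp only [mul_add, sum_add_distrib]
    linarith
  -- the linear part
  have htr : ∫ x in a..b, (K x).trace = ∑ i, 2 * L i := by
    have hc : ContinuousOn (fun x => (K x).trace) (Set.Icc a b) :=
      (continuous_id.matrix_trace).comp_continuousOn hK
    have e : ∫ x in a..b, (-K x).trace = (M b).trace - (M a).trace := by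
      refine intervalIntegral.integral_eq_sub_of_hasDeriv_right_of_le hab
        (fun x hx => (hd x hx).trace.continuousWithinAt) (fun x hx =>
          ((hd x (Set.Ioo_subset_Icc_self hx)).trace.hasDerivAt
            (Icc_mem_nhds hx.1 hx.2)).hasDerivWithinAt) ?_
      simp only [trace_neg]
      exact (hc.intervalIntegrable_of_Icc hab).neg
    simp only [trace_neg, intervalIntegral.integral_neg, hMa, hMb, trace_diagonal] at e
    rw [← mul_sum]
    linarith
  have hi0 : IntervalIntegrable (fun x => (K x).trace) volume a b :=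
    ((continuous_id.matrix_trace).comp_continuousOn hK).intervalIntegrable_of_Icc hab
  have e0 : ∫ x in a..b, ((K x).trace - s * gam L (M x) s (K x)) =
      (∫ x in a..b, (K x).trace) - s / 2 * ∫ x in a..b, ∫ t in (-1 : ℝ)..1, J x t := by
    rw [← intervalIntegral.integral_const_mul, ← intervalIntegral.integral_sub hi0
      ((hJx.const_mul _).intervalIntegrable _ _)]
    refine intervalIntegral.integral_congr fun x hx => ?_
    rw [Set.uIcc_of_le hab] at hx
    rw [hgam x hx]
    ring
  rw [e0, htr, hswap, intervalIntegral.integral_congr (g := fun t => ∑ i, L i / aent L s i *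
    ((aent L s i - t * L i)⁻¹ + (aent L s i + t * L i)⁻¹))
    fun t ht => hflow t (by rwa [Set.uIcc_of_le h11] at ht)]
  have hne : ∀ i, ∀ t ∈ Set.Icc (-1 : ℝ) 1,
      0 < aent L s i - t * L i ∧ 0 < aent L s i + t * L i := by
    intro i t ht
    have := lt_aent hL hs i
    have hLi := hL i
    constructor <;> nlinarith [ht.1, ht.2]
  have hi : ∀ i, IntervalIntegrable (fun t => L i / aent L s i *
      ((aent L s i - t * L i)⁻¹ + (aent L s i + t * L i)⁻¹)) volume (-1) 1 := fun i =>
    ((ContinuousOn.inv₀ (by fun_prop) fun t ht => (hne i t ht).1.ne').add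
      (ContinuousOn.inv₀ (by fun_prop) fun t ht => (hne i t ht).2.ne')).intervalIntegrable_of_Icc
        h11 |>.const_mul _
  rw [intervalIntegral.integral_finsetSum fun i _ => hi i, mul_sum, ← sum_sub_distrib]
  refine sum_congr rfl fun i _ => ?_
  rw [← intervalIntegral.integral_const_mul]
  have e2 : 2 * L i = ∫ _t in (-1 : ℝ)..1, L i := by
    rw [intervalIntegral.integral_const, smul_eq_mul]; ring
  rw [e2, ← intervalIntegral.integral_sub intervalIntegrable_const ((hi i).const_mul _)]
  refine intervalIntegral.integral_congr fun t ht => ?_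
  rw [Set.uIcc_of_le h11] at ht
  obtain ⟨p1, p2⟩ := hne i t ht
  have ha := aent_pos (L := L) hs i
  have hden : L i ^ 2 * (1 - t ^ 2) + s = (aent L s i - t * L i) * (aent L s i + t * L i) := by
    linear_combination -aent_sq (L := L) hs.le i
  rw [show L i ^ 2 * (1 - t ^ 2) / (L i ^ 2 * (1 - t ^ 2) + s) =
    1 - s / (L i ^ 2 * (1 - t ^ 2) + s) by
    rw [eq_sub_iff_add_eq, ← add_div, div_self (by rw [hden]; positivity)], hden,
    show (aent L s i - t * L i)⁻¹ + (aent L s i + t * L i)⁻¹ =
      2 * aent L s i / ((aent L s i - t * L i) * (aent L s i + t * L i)) by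
      rw [inv_add_inv p1.ne' p2.ne']; ring]
  generalize (aent L s i - t * L i) * (aent L s i + t * L i) = d
  have : aent L s i * (aent L s i)⁻¹ = 1 := mul_inv_cancel₀ ha.ne'
  linear_combination (-s * L i / d) * this

/-- A lifted Riccati path costs at least the one-bound-state amount, for every `m`. -/
theorem calBound {γ : ℝ} (h1 : 1 / 2 < γ) (h2 : γ < 3 / 2) (m : ℕ) : CalBound γ m := by
  obtain ⟨q, rfl⟩ : ∃ q, γ = q + 1 / 2 := ⟨γ - 1 / 2, by ring⟩
  have hq : 0 < q := by linarith
  have hq1 : q < 1 := by linarith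
  intro N a b W L R M hab hW hWp hL hR hRc hM hMa hMb hMd
  rw [show q + 1 / 2 + 1 / 2 = q + 1 by ring, show 2 * (q + 1 / 2) = 2 * q + 1 by ring]
  have hin : ∀ x ∈ Set.Icc a b, Inside L (M x) := fun x hx =>
    ⟨hL, (hM x hx).1, (hM x hx).2.1, (hM x hx).2.2⟩
  have hWc : ContinuousOn W (Set.Icc a b) :=
    continuousOn_pi.2 fun i => continuousOn_pi.2 fun j => hW i j
  have hMc : ContinuousOn M (Set.Icc a b) := fun x hx =>
    tendsto_pi_nhds.2 fun i => tendsto_pi_nhds.2 fun j => (hMd x hx i j).continuousWithinAt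
  set V : ℝ → Matrix (Fin N) (Fin N) ℝ := fun x => R x * W x * (R x)ᵀ with hVdef
  have hVc : ContinuousOn V (Set.Icc a b) := by
    rw [continuousOn_iff_continuous_domRestrict]
    exact ((continuousOn_iff_continuous_domRestrict.1 hR).matrix_mul
      (continuousOn_iff_continuous_domRestrict.1 hWc)).matrix_mul
        (continuousOn_iff_continuous_domRestrict.1 hR).matrix_transpose
  set K : ℝ → Matrix (Fin N) (Fin N) ℝ := fun x => V x - umat L (M x) with hKdef
  have hKc : ContinuousOn K (Set.Icc a b) :=
    hVc.sub (continuousOn_const.sub (hMc.mul hMc))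
  have hd : ∀ x ∈ Set.Icc a b, HasMDeriv M (-K x) (Set.Icc a b) x := fun x hx i j => by
    refine (hMd x hx i j).congr_deriv ?_
    simp only [hKdef, hVdef, umat, neg_sub]
  -- constants
  set P : ℝ := ∫ x in a..b, trPow (q + 1) (W x) with hP
  set K0 : ℝ := ∑ i, L i ^ 2 + 2 with hK0def
  have hK0 : 0 < K0 := by positivity
  have hK1 : ∀ i, L i ^ 2 + 1 ≤ K0 ^ 2 := fun i => by
    have := single_le_sum (f := fun j => L j ^ 2) (fun j _ => sq_nonneg _) (Finset.mem_univ i)
    nlinarith [sum_nonneg (s := univ) fun j _ => sq_nonneg (L j)]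
  obtain ⟨E, hE⟩ := isCompact_Icc.exists_bound_of_continuousOn (s := Set.Icc a b)
    (f := fun x => |(∑ i, L i ^ 2 * (M x * M x) i i + (q / (q + 1) * (V x).trace) ^ 2) / q| +
      |(∑ i, L i ^ 2 + q / (q + 1) * (V x).trace + 2 * N * (|Real.log (2 * K0)| + 1)) / q|) (by
    have hT : ContinuousOn (fun x => (V x).trace) (Set.Icc a b) :=
      (continuous_id.matrix_trace).comp_continuousOn hVc
    have hMM : ∀ i, ContinuousOn (fun x => (M x * M x) i i) (Set.Icc a b) := fun i =>
      continuousOn_pi.1 (continuousOn_pi.1 (hMc.mul hMc) i) i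
    exact (((continuousOn_finsetSum _ fun i _ => continuousOn_const.mul (hMM i)).add
      ((continuousOn_const.mul hT).pow 2)).div_const q).abs.add
      (((continuousOn_const.add (continuousOn_const.mul hT)).add continuousOn_const).div_const
        q).abs)
  have hWB : ∃ B, ∀ x ∈ Set.Icc a b, ∀ i j, ‖W x i j‖ ≤ B := by
    obtain ⟨B, hB⟩ := isCompact_Icc.exists_bound_of_continuousOn (s := Set.Icc a b)
      (f := fun x => ∑ i, ∑ j, |W x i j|)
      (continuousOn_finsetSum _ fun i _ => continuousOn_finsetSum _ fun j _ => (hW i j).abs)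
    refine ⟨B, fun x hx i j => ?_⟩
    refine le_trans ?_ ((le_abs_self _).trans (hB x hx))
    exact (single_le_sum (f := fun j => |W x i j|) (fun j _ => abs_nonneg _)
      (Finset.mem_univ j)).trans (single_le_sum (f := fun i => ∑ j, |W x i j|)
        (fun i _ => sum_nonneg fun j _ => abs_nonneg _) (Finset.mem_univ i))
  obtain ⟨B, hB⟩ := hWB
  have hPi : IntervalIntegrable (fun x => trPow (q + 1) (W x)) volume a b :=
    (continuousOn_trPow (by linarith) hWp hB hW).intervalIntegrable_of_Icc hab
  -- the truncated inequality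
  set ε : ℕ → ℝ := fun n => 1 / ((n : ℝ) + 1) with hεdef
  set S : ℕ → ℝ := fun n => (n : ℝ) + 1 with hSdef
  set T : ℕ → Fin N → ℝ := fun n i => ∫ t in (-1 : ℝ)..1,
    L i * ∫ s in ε n..S n, kern q (L i ^ 2 * (1 - t ^ 2)) s with hTdef
  have hmain : ∀ᶠ n in atTop, ∑ i, T n i ≤
      kconst q * (1 / q * (q / (q + 1)) ^ (q + 1) * P) +
        (b - a) * (E * (S n ^ (q - 1) + ε n ^ q)) := by
    filter_upwards [eventually_ge_atTop ⌈∑ i, L i ^ 2⌉₊] with n hn
    have hn' : ∑ i, L i ^ 2 ≤ n := (Nat.le_ceil _).trans (Nat.cast_le.2 hn)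
    have hε : 0 < ε n := by simp only [hεdef]; positivity
    have hε1 : ε n ≤ 1 := (div_le_one (by positivity)).2 (by simp)
    have hεS : ε n ≤ S n := hε1.trans (by simp [hSdef])
    have hSL : ∀ i, L i ^ 2 ≤ S n := fun i => by
      have := single_le_sum (f := fun j => L j ^ 2) (fun j _ => sq_nonneg _) (Finset.mem_univ i)
      simp only [hSdef]; linarith
    -- a continuous extension of the integrand
    set Kg : ℝ → Matrix (Fin N) (Fin N) ℝ := Set.IccExtend hab ((Set.Icc a b).domRestrict K)
    set Mg : ℝ → Matrix (Fin N) (Fin N) ℝ := Set.IccExtend hab ((Set.Icc a b).domRestrict M)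
    have hKg : Continuous Kg := (continuousOn_iff_continuous_domRestrict.1 hKc).Icc_extend'
    have hMg : Continuous Mg := (continuousOn_iff_continuous_domRestrict.1 hMc).Icc_extend'
    have hing : ∀ x, Inside L (Mg x) := fun x => by
      simp only [Mg, Set.IccExtend, Function.comp_apply, Set.domRestrict_apply]
      exact hin _ (Set.projIcc a b hab x).2
    have h11 : (-1 : ℝ) ≤ 1 := by norm_num
    set ct : ℝ → ℝ := fun t => (Set.projIcc (-1 : ℝ) 1 h11 t : ℝ)
    have hct : Continuous ct := continuous_subtype_val.comp continuous_projIcc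
    set cs : ℝ → ℝ := fun s => max s (ε n)
    have hcs : Continuous cs := continuous_id.max continuous_const
    have hcs0 : ∀ s, 0 < cs s := fun s => hε.trans_le (le_max_right _ _)
    set F : ℝ → ℝ → ℝ := fun x s => cs s ^ (q - 1) * ((Kg x).trace - cs s * (1 / 2 *
      ∫ t in (-1 : ℝ)..1, (Kg x * ((bmat L (Mg x) (cs s) (ct t))⁻¹ *
        (bmat L (Mg x) (cs s) (ct t))⁻¹)).trace)) with hFdef
    have hF : Continuous (Function.uncurry F) := by
      have hB2 : Continuous fun p : (ℝ × ℝ) × ℝ => bmat L (Mg p.1.1) (cs p.1.2) (ct p.2) := by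
        unfold bmat
        refine Continuous.sub (Continuous.matrix_diagonal (continuous_pi fun i => ?_))
          ((hct.comp continuous_snd).smul (hMg.comp (continuous_fst.comp continuous_fst)))
        exact (continuous_const.add (hcs.comp (continuous_snd.comp continuous_fst))).sqrt
      have hBi : Continuous fun p : (ℝ × ℝ) × ℝ =>
          (bmat L (Mg p.1.1) (cs p.1.2) (ct p.2))⁻¹ :=
        continuous_iff_continuousAt.2 fun p => (continuousAt_inv_of_det_ne_zero
          (bmat_det_pos (hing p.1.1) (hcs0 p.1.2) (Set.projIcc _ _ h11 p.2).2).ne').comp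
            (f := fun p : (ℝ × ℝ) × ℝ => bmat L (Mg p.1.1) (cs p.1.2) (ct p.2)) hB2.continuousAt
      have hI := intervalIntegral.continuous_parametric_intervalIntegral_of_continuous'
        (μ := volume) (f := fun (p : ℝ × ℝ) t => (Kg p.1 * ((bmat L (Mg p.1) (cs p.2) (ct t))⁻¹ *
          (bmat L (Mg p.1) (cs p.2) (ct t))⁻¹)).trace)
        (((hKg.comp (continuous_fst.comp continuous_fst)).mul (hBi.mul hBi)).matrix_trace) (-1) 1
      have h1 : Continuous fun p : ℝ × ℝ => cs p.2 ^ (q - 1) :=
        (hcs.comp continuous_snd).rpow_const fun p => Or.inl (hcs0 _).ne'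
      exact h1.mul (((hKg.comp continuous_fst).matrix_trace).sub
        ((hcs.comp continuous_snd).mul (continuous_const.mul hI)))
    have eF : ∀ x ∈ Set.Icc a b, ∀ s ∈ Set.Icc (ε n) (S n),
        F x s = fint q L (M x) (V x) s := by
      intro x hx s hs
      have e1 : cs s = s := max_eq_left hs.1
      have e2 : Kg x = K x := Set.IccExtend_of_mem hab _ hx
      have e3 : Mg x = M x := Set.IccExtend_of_mem hab _ hx
      simp only [hFdef, e1, e2, e3, fint, gam, hKdef]
      congr 4
      refine intervalIntegral.integral_congr fun t ht => ?_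
      rw [Set.uIcc_of_le h11] at ht
      simp only [ct, Set.projIcc_of_mem h11 ht]
    have hinner : Continuous fun x => ∫ s in ε n..S n, F x s :=
      intervalIntegral.continuous_parametric_intervalIntegral_of_continuous' hF _ _
    have hA : ∀ x ∈ Set.Icc a b, ∫ s in ε n..S n, F x s ≤
        kconst q * (1 / q * (q / (q + 1)) ^ (q + 1) * trPow (q + 1) (W x)) +
          E * (S n ^ (q - 1) + ε n ^ q) := by
      intro x hx
      have hEx := (le_abs_self _).trans (hE x hx)
      rw [intervalIntegral.integral_congr fun s hs => eF x hx s (by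
        rwa [Set.uIcc_of_le hεS] at hs)]
      refine integral_fint_le (hin x hx) (hWp x hx) (hRc x) hq hq1 hε hε1 hεS hSL hK1 hK0
        (le_trans (le_trans (le_abs_self _) (le_add_of_nonneg_right (abs_nonneg _))) hEx)
        (le_trans (le_trans (le_abs_self _) (le_add_of_nonneg_left (abs_nonneg _))) hEx) ?_
      exact ((hF.comp (continuous_const.prodMk continuous_id)).continuousOn).congr
        fun s hs => (eF x hx s hs).symm
    have hB' := intervalIntegral.integral_mono_on hab (hinner.intervalIntegrable _ _)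
      ((((hPi.const_mul _).const_mul _)).add intervalIntegrable_const) hA
    rw [intervalIntegral.integral_add ((hPi.const_mul _).const_mul _) intervalIntegrable_const,
      intervalIntegral.integral_const_mul, intervalIntegral.integral_const_mul,
      intervalIntegral.integral_const, smul_eq_mul] at hB'
    refine le_trans (le_of_eq ?_) hB'
    have hswap : ∫ x in a..b, ∫ s in ε n..S n, F x s = ∫ s in ε n..S n, ∫ x in a..b, F x s :=
      intervalIntegral_intervalIntegral_swap ((hF.continuousOn.integrableOn_compact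
        (isCompact_uIcc.prod isCompact_uIcc)).mono_set
          (Set.prod_mono Set.uIoc_subset_uIcc Set.uIoc_subset_uIcc))
    rw [hswap]
    have hpath : ∀ s ∈ Set.Icc (ε n) (S n), ∫ x in a..b, F x s =
        ∑ i, ∫ t in (-1 : ℝ)..1, L i * kern q (L i ^ 2 * (1 - t ^ 2)) s := by
      intro s hs
      have hs0 : 0 < s := hε.trans_le hs.1
      rw [intervalIntegral.integral_congr fun x hx => eF x (by
        rwa [Set.uIcc_of_le hab] at hx) s hs]
      simp only [fint]
      rw [intervalIntegral.integral_const_mul,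
        integral_path hL hab hin hKc hd hMa hMb hs0, mul_sum]
      refine sum_congr rfl fun i _ => ?_
      rw [← intervalIntegral.integral_const_mul]
      exact intervalIntegral.integral_congr fun t _ => by simp only [kern]; ring
    rw [intervalIntegral.integral_congr fun s hs => hpath s (by
      rwa [Set.uIcc_of_le hεS] at hs)]
    have hk : ∀ i, ContinuousOn (Function.uncurry fun s t =>
        L i * kern q (L i ^ 2 * (1 - t ^ 2)) s) (Set.Icc (ε n) (S n) ×ˢ Set.Icc (-1) 1) := by
      intro i
      unfold kern Function.uncurry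
      refine continuousOn_const.mul (ContinuousOn.mul ?_ (ContinuousOn.div (by fun_prop)
        (by fun_prop) fun p hp => ?_))
      · exact continuousOn_fst.rpow_const fun p hp => Or.inl (hε.trans_le hp.1.1).ne'
      · have : 0 ≤ L i ^ 2 * (1 - p.2 ^ 2) :=
          mul_nonneg (sq_nonneg _) (by nlinarith [hp.2.1, hp.2.2])
        exact ne_of_gt (by linarith [hε.trans_le hp.1.1])
    have hki : ∀ i, IntegrableOn (Function.uncurry fun s t =>
        L i * kern q (L i ^ 2 * (1 - t ^ 2)) s)
        (Set.uIoc (ε n) (S n) ×ˢ Set.uIoc (-1 : ℝ) 1) := fun i =>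
      ((hk i).integrableOn_compact (isCompact_Icc.prod isCompact_Icc)).mono_set (by
        rw [Set.uIoc_of_le hεS, Set.uIoc_of_le h11]
        exact Set.prod_mono Set.Ioc_subset_Icc_self Set.Ioc_subset_Icc_self)
    rw [intervalIntegral.integral_finsetSum fun i _ => ?_]
    · refine sum_congr rfl fun i _ => ?_
      simp only [hTdef, ← intervalIntegral.integral_const_mul]
      exact (intervalIntegral_intervalIntegral_swap (hki i)).symm
    · refine ContinuousOn.intervalIntegrable ?_
      rw [Set.uIcc_of_le hεS]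
      refine ContinuousOn.congr (f := fun s => ∫ t in (-1 : ℝ)..1,
        L i * kern q (L i ^ 2 * (1 - ct t ^ 2)) (min (cs s) (S n))) ?_ ?_
      · refine (intervalIntegral.continuous_parametric_intervalIntegral_of_continuous'
          (f := fun s t => L i * kern q (L i ^ 2 * (1 - ct t ^ 2)) (min (cs s) (S n))) ?_ _ _).continuousOn
        exact (hk i).comp_continuous (f := fun p : ℝ × ℝ => (min (cs p.1) (S n), ct p.2))
          (((hcs.comp continuous_fst).min continuous_const).prodMk (hct.comp continuous_snd))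
          (fun p => ⟨⟨le_min (le_max_right _ _) hεS, min_le_right _ _⟩,
            (Set.projIcc _ _ h11 p.2).2⟩)
      · intro s hs
        refine intervalIntegral.integral_congr fun t ht => ?_
        rw [Set.uIcc_of_le h11] at ht
        simp only [ct, cs, Set.projIcc_of_mem h11 ht, max_eq_left hs.1, min_eq_left hs.2]
  -- the limit
  have hlim : Tendsto (fun n => ∑ i, T n i) atTop
      (𝓝 (∑ i, L i ^ (2 * q + 1) * kconst q * ∫ t in (-1 : ℝ)..1, (1 - t ^ 2) ^ q)) := by
    refine tendsto_finsetSum _ fun i _ => ?_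
    have e : L i ^ (2 * q + 1) * kconst q * ∫ t in (-1 : ℝ)..1, (1 - t ^ 2) ^ q =
        ∫ t in (-1 : ℝ)..1, L i * ((L i ^ 2 * (1 - t ^ 2)) ^ q * kconst q) := by
      rw [← intervalIntegral.integral_const_mul]
      refine intervalIntegral.integral_congr fun t ht => ?_
      rw [Set.uIcc_of_le (by norm_num)] at ht
      rw [Real.mul_rpow (sq_nonneg _) (by nlinarith [ht.1, ht.2]),
        Real.rpow_add (hL i), Real.rpow_one, Real.rpow_mul (hL i).le, Real.rpow_two]
      ring
    rw [e]
    have hnn : ∀ t ∈ Set.uIoc (-1 : ℝ) 1, 0 ≤ L i ^ 2 * (1 - t ^ 2) := fun t ht => by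
      rw [Set.uIoc_of_le (by norm_num)] at ht
      exact mul_nonneg (sq_nonneg _) (by nlinarith [ht.1, ht.2])
    have hεS : ∀ n, 0 < ε n ∧ ε n ≤ S n := fun n => by
      refine ⟨by simp only [hεdef]; positivity, ?_⟩
      exact ((div_le_one (by positivity)).2 (by simp)).trans (by simp [hSdef])
    refine intervalIntegral.tendsto_integral_filter_of_dominated_convergence
      (fun _ => L i * ((L i ^ 2) ^ q * kconst q)) (Eventually.of_forall fun n => ?_)
      (Eventually.of_forall fun n => Eventually.of_forall fun t ht => ?_) intervalIntegrable_const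
      (Eventually.of_forall fun t ht =>
        (tendsto_intervalIntegral_kern hq hq1 (hnn t ht)).const_mul _)
    · have hm : Measurable (Function.uncurry fun t s =>
          kern q (L i ^ 2 * (1 - t ^ 2)) s : ℝ × ℝ → ℝ) := by
        unfold kern Function.uncurry; fun_prop
      simp only [intervalIntegral.integral_of_le (hεS n).2]
      exact ((hm.stronglyMeasurable.integral_prod_right).const_mul _).aestronglyMeasurable
    · rw [Real.norm_eq_abs, abs_of_nonneg (mul_nonneg (hL i).le
        (intervalIntegral_kern_nonneg (hnn t ht) (hεS n).1 (hεS n).2))]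
      refine mul_le_mul_of_nonneg_left ((intervalIntegral_kern_le hq hq1 (hnn t ht) (hεS n).1
        (hεS n).2).trans (mul_le_mul_of_nonneg_right (Real.rpow_le_rpow (hnn t ht) ?_ hq.le)
        (kconst_pos hq hq1).le)) (hL i).le
      exact mul_le_of_le_one_right (sq_nonneg _) (by nlinarith [sq_nonneg t])
  have herr : Tendsto (fun n => kconst q * (1 / q * (q / (q + 1)) ^ (q + 1) * P) +
      (b - a) * (E * (S n ^ (q - 1) + ε n ^ q))) atTop
      (𝓝 (kconst q * (1 / q * (q / (q + 1)) ^ (q + 1) * P) + (b - a) * (E * (0 + 0)))) := by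
    refine tendsto_const_nhds.add (((Tendsto.add ?_ ?_).const_mul E).const_mul (b - a))
    · have h0 := tendsto_rpow_neg_atTop (show 0 < 1 - q by linarith)
      rw [show -(1 - q) = q - 1 by ring] at h0
      exact h0.comp (tendsto_atTop_add_const_right _ 1 tendsto_natCast_atTop_atTop)
    · have h0 := (tendsto_one_div_add_atTop_nhds_zero_nat (𝕜 := ℝ)).rpow_const (p := q)
        (Or.inr hq.le)
      rwa [Real.zero_rpow hq.ne'] at h0
  have key := le_of_tendsto_of_tendsto hlim herr hmain
  rw [integral_one_sub_sq_rpow hq, ← sum_mul, ← sum_mul] at key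
  have hk0 := kconst_pos hq hq1
  have g1 := Real.Gamma_pos_of_pos (show 0 < q + 1 by linarith)
  have g2 := Real.Gamma_pos_of_pos (show 0 < q + 3 / 2 by linarith)
  have hsum : ∑ i, L i ^ (2 * q + 1) ≤ 1 / q * (q / (q + 1)) ^ (q + 1) * P /
      (√Real.pi * Real.Gamma (q + 1) / Real.Gamma (q + 3 / 2)) := by
    rw [le_div_iff₀ (by positivity)]
    refine le_of_mul_le_mul_left ?_ hk0
    linarith
  refine hsum.trans_eq ?_
  have hLc : L1 (q + 1 / 2) = 1 / q * (q / (q + 1)) ^ (q + 1) /
      (√Real.pi * Real.Gamma (q + 1) / Real.Gamma (q + 3 / 2)) := by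
    rw [L1, Lcl, show q + 1 / 2 - 1 / 2 = q by ring, show q + 1 / 2 + 1 / 2 = q + 1 by ring,
      show q + 1 / 2 + 1 = q + 3 / 2 by ring, show q + 1 / 2 + 3 / 2 = q + 1 + 1 by ring,
      Real.Gamma_add_one (show q + 1 ≠ 0 by linarith),
      Real.rpow_add_one (show q / (q + 1) ≠ 0 by positivity)]
    field_simp
  rw [hLc, hP]
  ring

end Vale.Agent.P371.Cal
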