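import Vale.Agent.P371.Cal.Tools

/-!
# P371 (calibration): three trace inequalities

For `A = √(L ^ 2 + s)`, `B t = A - t M` and `G` the average of `B t ^ (-2)` over `t ∈ [-1, 1]`:
`tr ((A ^ 2 - M ^ 2) G) ≤ N`, `tr G` is at most the derivative of `log det ((A + M) (A - M))` in
`s`, and `tr (Y G) ≥ N + log det Y - log det ((A + M) (A - M))` for positive definite `Y`.
-/

open Matrix Finset MeasureTheory
open scoped Topology

namespace Vale.Agent.P371.Cal

variable {N : ℕ}

set_option linter.unusedSectionVars false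

/-- The matrices between `-L` and `L`. -/
structure Inside (L : Fin N → ℝ) (M : Matrix (Fin N) (Fin N) ℝ) : Prop where
  pos : ∀ i, 0 < L i
  herm : M.IsHermitian
  sub : (diagonal L - M).PosSemidef
  add : (M + diagonal L).PosSemidef

/-- The entries of `√(L ^ 2 + s)`. -/
noncomputable def aent (L : Fin N → ℝ) (s : ℝ) (i : Fin N) : ℝ := Real.sqrt (L i ^ 2 + s)

/-- `√(L ^ 2 + s) - t M`. -/
noncomputable def bmat (L : Fin N → ℝ) (M : Matrix (Fin N) (Fin N) ℝ) (s t : ℝ) :
    Matrix (Fin N) (Fin N) ℝ :=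
  diagonal (aent L s) - t • M

/-- `tr (K G)`. -/
noncomputable def gam (L : Fin N → ℝ) (M : Matrix (Fin N) (Fin N) ℝ) (s : ℝ)
    (K : Matrix (Fin N) (Fin N) ℝ) : ℝ :=
  (1 / 2) * ∫ t in (-1 : ℝ)..1, (K * ((bmat L M s t)⁻¹ * (bmat L M s t)⁻¹)).trace

/-- `-log det ((A + M) (A - M))`. -/
noncomputable def ell (L : Fin N → ℝ) (M : Matrix (Fin N) (Fin N) ℝ) (s : ℝ) : ℝ :=
  -Real.log (bmat L M s 1).det - Real.log (bmat L M s (-1)).det

/-- The derivative of `ell` in `s`. -/
noncomputable def ell' (L : Fin N → ℝ) (M : Matrix (Fin N) (Fin N) ℝ) (s : ℝ) : ℝ :=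
  -((bmat L M s 1)⁻¹ * diagonal fun i => 1 / (2 * aent L s i)).trace -
    ((bmat L M s (-1))⁻¹ * diagonal fun i => 1 / (2 * aent L s i)).trace

variable {L : Fin N → ℝ} {M : Matrix (Fin N) (Fin N) ℝ} {s t : ℝ}

lemma aent_pos (hs : 0 < s) (i : Fin N) : 0 < aent L s i :=
  Real.sqrt_pos.2 (by positivity)

lemma lt_aent (hL : ∀ i, 0 < L i) (hs : 0 < s) (i : Fin N) : L i < aent L s i := by
  conv_lhs => rw [← Real.sqrt_sq (hL i).le]
  exact Real.sqrt_lt_sqrt (sq_nonneg _) (by linarith)

lemma aent_sq (hs : 0 ≤ s) (i : Fin N) : aent L s i ^ 2 = L i ^ 2 + s :=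
  Real.sq_sqrt (by positivity)

lemma bmat_posDef (h : Inside L M) (hs : 0 < s) (ht : t ∈ Set.Icc (-1 : ℝ) 1) :
    (bmat L M s t).PosDef := by
  have e : bmat L M s t = diagonal (fun i => aent L s i - L i) +
      (((1 + t) / 2) • (diagonal L - M) + ((1 - t) / 2) • (M + diagonal L)) := by
    ext i j
    by_cases hij : i = j
    · subst hij
      simp [bmat]
      ring
    · simp [bmat, hij]
      ring
  rw [e]
  exact (posDef_diagonal_iff.2 fun i => sub_pos.2 (lt_aent h.pos hs i)).add_posSemidef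
    ((h.sub.smul (by linarith [ht.1])).add (h.add.smul (by linarith [ht.2])))

lemma bmat_det_pos (h : Inside L M) (hs : 0 < s) (ht : t ∈ Set.Icc (-1 : ℝ) 1) :
    0 < (bmat L M s t).det := (bmat_posDef h hs ht).det_pos

lemma bmat_inv_symm (h : Inside L M) (hs : 0 < s) (ht : t ∈ Set.Icc (-1 : ℝ) 1) :
    ((bmat L M s t)⁻¹)ᵀ = (bmat L M s t)⁻¹ := by
  exact (by simpa using (bmat_posDef h hs ht).inv.1 : ((bmat L M s t)⁻¹).IsSymm)

lemma hasMDeriv_bmat (x : ℝ) (S : Set ℝ) : HasMDeriv (fun y => bmat L M s y) (-M) S x := by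
  intro i j
  simpa [bmat] using ((hasDerivWithinAt_id x S).mul_const (M i j)).const_sub
    (diagonal (aent L s) i j)

lemma hasMDeriv_bmat_inv (h : Inside L M) (hs : 0 < s) (ht : t ∈ Set.Icc (-1 : ℝ) 1)
    (S : Set ℝ) :
    HasMDeriv (fun y => (bmat L M s y)⁻¹) ((bmat L M s t)⁻¹ * M * (bmat L M s t)⁻¹) S t := by
  have := (hasMDeriv_bmat t S).inv (bmat_det_pos h hs ht).ne'
  simpa using this

lemma continuousOn_bmat_inv (h : Inside L M) (hs : 0 < s) :
    ContinuousOn (fun y => (bmat L M s y)⁻¹) (Set.Icc (-1) 1) := fun _ ht =>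
  (continuousAt_inv_of_det_ne_zero (bmat_det_pos h hs ht).ne').comp_continuousWithinAt
    (by unfold bmat; fun_prop)

lemma continuousOn_gamIntegrand (h : Inside L M) (hs : 0 < s)
    (K : Matrix (Fin N) (Fin N) ℝ) :
    ContinuousOn (fun y => (K * ((bmat L M s y)⁻¹ * (bmat L M s y)⁻¹)).trace) (Set.Icc (-1) 1) :=
  (continuous_id.matrix_trace).comp_continuousOn
    (((continuous_const (y := K)).continuousOn).mul
      ((continuousOn_bmat_inv h hs).mul (continuousOn_bmat_inv h hs)))

lemma gam_add_smul (h : Inside L M) (hs : 0 < s) (K K' : Matrix (Fin N) (Fin N) ℝ) (c : ℝ) :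
    gam L M s (K + c • K') = gam L M s K + c * gam L M s K' := by
  have i1 := (continuousOn_gamIntegrand h hs K).intervalIntegrable_of_Icc (μ := volume)
    (by norm_num : (-1 : ℝ) ≤ 1)
  have i2 := (continuousOn_gamIntegrand h hs K').intervalIntegrable_of_Icc (μ := volume)
    (by norm_num : (-1 : ℝ) ≤ 1)
  simp only [gam, Matrix.add_mul, Matrix.smul_mul, trace_add, trace_smul, smul_eq_mul]
  rw [intervalIntegral.integral_add i1 (i2.const_mul c), intervalIntegral.integral_const_mul]
  ring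

/-- `tr (K ^ 2) ≤ tr (Kᵀ K)`. -/
lemma trace_mul_self_le (K : Matrix (Fin N) (Fin N) ℝ) : (K * K).trace ≤ (Kᵀ * K).trace := by
  simp only [Matrix.trace, Matrix.diag, mul_apply, transpose_apply]
  have h2 : ∑ i, ∑ j, K i j * K j i ≤ ∑ i, ∑ j, (K i j * K i j + K j i * K j i) / 2 :=
    sum_le_sum fun i _ => sum_le_sum fun j _ => by nlinarith [sq_nonneg (K i j - K j i)]
  refine h2.trans_eq ?_
  simp only [add_div, sum_add_distrib, ← Finset.sum_div]
  rw [sum_comm (f := fun i j => K i j * K i j)]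
  ring

/-- `tr ((A ^ 2 - M ^ 2) G) ≤ N`. -/
lemma gam_sq_le (h : Inside L M) (hs : 0 < s) :
    gam L M s (diagonal (fun i => L i ^ 2 + s) - M * M) ≤ N := by
  set A := diagonal (aent L s) with hA
  have hAA : diagonal (fun i => L i ^ 2 + s) = A * A := by
    rw [hA, diagonal_mul_diagonal]; congr 1; funext i; rw [← sq, aent_sq hs.le]
  set g : ℝ → ℝ := fun y => ((bmat L M s y)⁻¹ * (y • A - M)).trace with hg
  set g' : ℝ → ℝ := fun y =>
    ((bmat L M s y)⁻¹ * M * (bmat L M s y)⁻¹ * (y • A - M) + (bmat L M s y)⁻¹ * A).trace with hg'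
  have hd : ∀ y ∈ Set.Icc (-1 : ℝ) 1, HasDerivWithinAt g (g' y) (Set.Icc (-1) 1) y := by
    intro y hy
    have h2 : HasMDeriv (fun z : ℝ => z • A - M) A (Set.Icc (-1) 1) y := fun i j => by
      simpa using ((hasDerivWithinAt_id y _).mul_const (A i j)).sub_const (M i j)
    exact ((hasMDeriv_bmat_inv h hs hy _).mul h2).trace
  have hc : ContinuousOn g' (Set.Icc (-1) 1) := by
    have hC := continuousOn_bmat_inv h hs
    refine (continuous_id.matrix_trace).comp_continuousOn ?_
    exact (((hC.mul continuousOn_const).mul hC).mul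
      (by fun_prop)).add (hC.mul continuousOn_const)
  have hle : ∀ y ∈ Set.Icc (-1 : ℝ) 1,
      ((diagonal (fun i => L i ^ 2 + s) - M * M) *
        ((bmat L M s y)⁻¹ * (bmat L M s y)⁻¹)).trace ≤ g' y := by
    intro y hy
    set B := bmat L M s y with hB
    set C := B⁻¹ with hC
    have hu : IsUnit B.det := isUnit_iff_ne_zero.2 (bmat_det_pos h hs hy).ne'
    have hCB : C * B = 1 := nonsing_inv_mul _ hu
    have hBC : B * C = 1 := mul_nonsing_inv _ hu
    have hAB : A = B + y • M := by rw [hB, bmat]; simp [hA]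
    have hCs : Cᵀ = C := bmat_inv_symm h hs hy
    have hMs : Mᵀ = M := by simpa using h.herm.eq
    have key : (C * M * (C * M)).trace ≤ (M * M * (C * C)).trace := by
      refine (trace_mul_self_le _).trans_eq ?_
      rw [transpose_mul, hCs, hMs, trace_mul_comm (M * M)]
      rw [show M * C * (C * M) = M * (C * C * M) by simp only [Matrix.mul_assoc],
        trace_mul_comm M, Matrix.mul_assoc (C * C)]
    have e1 : ((A * A - M * M) * (C * C)).trace =
        N + 2 * y * (C * M).trace + (y ^ 2 - 1) * (M * M * (C * C)).trace := by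
      rw [hAB]
      have : (B + y • M) * (B + y • M) - M * M =
          B * B + y • (B * M) + y • (M * B) + (y ^ 2 - 1) • (M * M) := by
        simp only [Matrix.mul_add, Matrix.add_mul, Matrix.smul_mul, Matrix.mul_smul]
        match_scalars <;> ring
      rw [this]
      simp only [Matrix.add_mul, Matrix.smul_mul, trace_add, trace_smul, smul_eq_mul]
      have t1 : (B * B * (C * C)).trace = N := by
        rw [Matrix.mul_assoc B B, ← Matrix.mul_assoc B C, hBC, Matrix.one_mul, hBC, trace_one,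
          Fintype.card_fin]
      have t2 : (B * M * (C * C)).trace = (C * M).trace := by
        rw [Matrix.mul_assoc B M, trace_mul_comm B, Matrix.mul_assoc M, Matrix.mul_assoc C C, hCB,
          Matrix.mul_one, trace_mul_comm]
      have t3 : (M * B * (C * C)).trace = (C * M).trace := by
        rw [Matrix.mul_assoc M B, ← Matrix.mul_assoc B C, hBC, Matrix.one_mul, trace_mul_comm]
      rw [t1, t2, t3]
      ring
    have e2 : g' y = N + 2 * y * (C * M).trace + (y ^ 2 - 1) * (C * M * (C * M)).trace := by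
      simp only [hg', ← hB, ← hC]
      rw [show y • A - M = y • B + (y ^ 2 - 1) • M by
        rw [hAB, smul_add, smul_smul, sub_smul, one_smul, sq]; abel]
      rw [hAB]
      simp only [Matrix.mul_add, Matrix.mul_smul, trace_add, trace_smul, smul_eq_mul]
      rw [Matrix.mul_assoc (C * M) C B, hCB, Matrix.mul_one, Matrix.mul_assoc (C * M) C M,
        trace_one, Fintype.card_fin]
      ring
    rw [hAA, e1, e2]
    have hy2 : y ^ 2 - 1 ≤ 0 := by nlinarith [hy.1, hy.2]
    linarith [mul_le_mul_of_nonpos_left key hy2]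
  have hint : ∫ y in (-1 : ℝ)..1, g' y = g 1 - g (-1) := by
    refine intervalIntegral.integral_eq_sub_of_hasDeriv_right_of_le (by norm_num)
      (fun y hy => (hd y hy).continuousWithinAt) (fun y hy => ?_)
      (hc.intervalIntegrable_of_Icc (by norm_num))
    exact ((hd y (Set.Ioo_subset_Icc_self hy)).hasDerivAt
      (Icc_mem_nhds hy.1 hy.2)).hasDerivWithinAt
  have h1 : g 1 = N := by
    have hu : IsUnit (bmat L M s 1).det :=
      isUnit_iff_ne_zero.2 (bmat_det_pos h hs (by norm_num)).ne'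
    simp only [hg]
    rw [show (1 : ℝ) • A - M = bmat L M s 1 by simp [bmat, hA], nonsing_inv_mul _ hu, trace_one,
      Fintype.card_fin]
  have h2 : g (-1) = -N := by
    have hu : IsUnit (bmat L M s (-1)).det :=
      isUnit_iff_ne_zero.2 (bmat_det_pos h hs (by norm_num)).ne'
    simp only [hg]
    rw [show (-1 : ℝ) • A - M = -bmat L M s (-1) by simp [bmat, hA]; abel, Matrix.mul_neg,
      nonsing_inv_mul _ hu, trace_neg, trace_one, Fintype.card_fin]
  unfold gam
  have := intervalIntegral.integral_mono_on (by norm_num : (-1 : ℝ) ≤ 1)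
    ((continuousOn_gamIntegrand h hs _).intervalIntegrable_of_Icc (by norm_num))
    (hc.intervalIntegrable_of_Icc (μ := volume) (by norm_num)) hle
  rw [hint, h1, h2] at this
  linarith

lemma hasMDeriv_bmat_s (hs : 0 < s) (y : ℝ) (S : Set ℝ) :
    HasMDeriv (fun r => bmat L M r y) (diagonal fun i => 1 / (2 * aent L s i)) S s := by
  intro i j
  by_cases hij : i = j
  · subst hij
    simp only [bmat, Matrix.sub_apply, Matrix.smul_apply, diagonal_apply_eq, smul_eq_mul]
    exact ((((hasDerivAt_id s).const_add (L i ^ 2)).sqrt (by positivity)).sub_const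
      (y * M i i)).hasDerivWithinAt
  · simp only [bmat, Matrix.sub_apply, Matrix.smul_apply, diagonal_apply_ne _ hij]
    exact hasDerivWithinAt_const s S _

lemma hasDerivAt_ell (h : Inside L M) (hs : 0 < s) :
    HasDerivAt (ell L M) (ell' L M s) s := by
  have h1 := (hasMDeriv_bmat_s (L := L) (M := M) hs 1 Set.univ).log_det
    (bmat_det_pos h hs (by norm_num))
  have h2 := (hasMDeriv_bmat_s (L := L) (M := M) hs (-1) Set.univ).log_det
    (bmat_det_pos h hs (by norm_num))
  exact hasDerivWithinAt_univ.1 (h1.fun_neg.fun_sub h2)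

/-- `tr G ≤ -ell'`. -/
lemma gam_one_le (h : Inside L M) (hs : 0 < s) : gam L M s 1 ≤ -ell' L M s := by
  set A := diagonal (aent L s) with hA
  set D := diagonal fun i => (aent L s i)⁻¹ with hD
  set g : ℝ → ℝ := fun y => y * ((bmat L M s y)⁻¹ * D).trace with hg
  set g' : ℝ → ℝ := fun y => ((bmat L M s y)⁻¹ * A * (bmat L M s y)⁻¹ * D).trace with hg'
  have hd : ∀ y ∈ Set.Icc (-1 : ℝ) 1, HasDerivWithinAt g (g' y) (Set.Icc (-1) 1) y := by
    intro y hy
    have h2 := ((hasMDeriv_bmat_inv h hs hy (Set.Icc (-1) 1)).mul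
      (hasMDeriv_const D _ y)).trace
    refine ((hasDerivWithinAt_id y _).fun_mul h2).congr_deriv ?_
    set B := bmat L M s y with hB
    have hu : IsUnit B.det := isUnit_iff_ne_zero.2 (bmat_det_pos h hs hy).ne'
    have hAB : A = B + y • M := by rw [hB, bmat]; simp [hA]
    simp only [hg', ← hB, hAB, Matrix.mul_zero, add_zero, id, one_mul]
    rw [Matrix.mul_add B⁻¹, Matrix.add_mul, nonsing_inv_mul _ hu, Matrix.one_mul,
      Matrix.mul_smul, Matrix.smul_mul, Matrix.add_mul, Matrix.smul_mul, trace_add, trace_smul,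
      smul_eq_mul]
  have hc : ContinuousOn g' (Set.Icc (-1) 1) := by
    have hC := continuousOn_bmat_inv h hs
    exact (continuous_id.matrix_trace).comp_continuousOn
      (((hC.mul continuousOn_const).mul hC).mul continuousOn_const)
  have hle : ∀ y ∈ Set.Icc (-1 : ℝ) 1,
      ((1 : Matrix (Fin N) (Fin N) ℝ) * ((bmat L M s y)⁻¹ * (bmat L M s y)⁻¹)).trace ≤ g' y := by
    intro y hy
    have hCs := bmat_inv_symm h hs hy
    simp only [hg']
    set C := (bmat L M s y)⁻¹
    have hsym : ∀ i j, C j i = C i j := fun i j => congrFun (congrFun hCs i) j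
    simp only [Matrix.one_mul, hA, hD, Matrix.trace, Matrix.diag, mul_diagonal,
      mul_apply (M := C * diagonal _) (N := C), mul_apply (M := C) (N := C), Finset.sum_mul]
    have hm : ∀ i j, C i j * C j i + C j i * C i j ≤
        C i j * aent L s j * C j i * (aent L s i)⁻¹ +
          C j i * aent L s i * C i j * (aent L s j)⁻¹ := by
      intro i j
      have ai := aent_pos (L := L) hs i
      have aj := aent_pos (L := L) hs j
      rw [hsym i j]
      have e : C i j * aent L s j * C i j * (aent L s i)⁻¹ +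
          C i j * aent L s i * C i j * (aent L s j)⁻¹ - (C i j * C i j + C i j * C i j) =
          (C i j * (aent L s i - aent L s j)) ^ 2 / (aent L s i * aent L s j) := by
        field_simp
        ring
      have : 0 ≤ (C i j * (aent L s i - aent L s j)) ^ 2 / (aent L s i * aent L s j) := by
        positivity
      linarith
    have h3 := Finset.sum_le_sum fun i (_ : i ∈ (univ : Finset (Fin N))) =>
      Finset.sum_le_sum fun j (_ : j ∈ (univ : Finset (Fin N))) => hm i j
    simp only [sum_add_distrib] at h3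
    rw [sum_comm (f := fun i j => C j i * C i j),
      sum_comm (f := fun i j => C j i * aent L s i * C i j * (aent L s j)⁻¹)] at h3
    linarith
  have hint : ∫ y in (-1 : ℝ)..1, g' y = g 1 - g (-1) := by
    refine intervalIntegral.integral_eq_sub_of_hasDeriv_right_of_le (by norm_num)
      (fun y hy => (hd y hy).continuousWithinAt) (fun y hy => ?_)
      (hc.intervalIntegrable_of_Icc (by norm_num))
    exact ((hd y (Set.Ioo_subset_Icc_self hy)).hasDerivAt
      (Icc_mem_nhds hy.1 hy.2)).hasDerivWithinAt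
  have := intervalIntegral.integral_mono_on (by norm_num : (-1 : ℝ) ≤ 1)
    ((continuousOn_gamIntegrand h hs 1).intervalIntegrable_of_Icc (by norm_num))
    (hc.intervalIntegrable_of_Icc (μ := volume) (by norm_num)) hle
  rw [hint] at this
  have e : (diagonal fun i => 1 / (2 * aent L s i)) = (1 / 2 : ℝ) • D := by
    ext i j
    by_cases hij : i = j
    · subst hij; simp [hD]; ring
    · simp [hD, hij]
  unfold gam ell'
  rw [e, Matrix.mul_smul, Matrix.mul_smul, trace_smul, trace_smul, smul_eq_mul, smul_eq_mul]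
  simp only [hg] at this
  linarith

/-- `tr (Y G) ≥ N + log det Y + ell`. -/
lemma le_gam (h : Inside L M) (hs : 0 < s) {Y : Matrix (Fin N) (Fin N) ℝ} (hY : Y.PosDef) :
    N + Real.log Y.det + ell L M s ≤ gam L M s Y := by
  set r := fun i => Real.sqrt (aent L s i) with hr
  have hrpos : ∀ i, 0 < r i := fun i => Real.sqrt_pos.2 (aent_pos hs i)
  set X := diagonal (fun i => (r i)⁻¹) * M * diagonal (fun i => (r i)⁻¹) with hXdef
  have hXh : X.IsHermitian := by
    have := Matrix.isHermitian_conjTranspose_mul_mul (diagonal fun i => (r i)⁻¹) h.herm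
    simpa [hXdef] using this
  obtain ⟨U, hU1, hU2, hXU⟩ := exists_diag hXh
  set x := hXh.eigenvalues
  set V := diagonal r * U with hV
  set Wm := Uᵀ * diagonal (fun i => (r i)⁻¹) with hW
  have hr1 : diagonal (fun i => (r i)⁻¹) * diagonal r = 1 := by
    rw [diagonal_mul_diagonal, ← diagonal_one]
    congr 1; funext i; exact inv_mul_cancel₀ (hrpos i).ne'
  have hr2 : diagonal r * diagonal (fun i => (r i)⁻¹) = 1 := by
    rw [diagonal_mul_diagonal, ← diagonal_one]
    congr 1; funext i; exact mul_inv_cancel₀ (hrpos i).ne'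
  have hWV : Wm * V = 1 := by
    rw [hW, hV, Matrix.mul_assoc, ← Matrix.mul_assoc (diagonal _) (diagonal r), hr1,
      Matrix.one_mul, hU1]
  have hVW : V * Wm = 1 := mul_eq_one_comm.1 hWV
  have hVTWT : Vᵀ * Wmᵀ = 1 := by rw [← transpose_mul, hWV, transpose_one]
  have hWTVT : Wmᵀ * Vᵀ = 1 := by rw [← transpose_mul, hVW, transpose_one]
  have hB : ∀ y, bmat L M s y = V * diagonal (fun i => 1 - y * x i) * Vᵀ := by
    intro y
    have e1 : (diagonal fun i => 1 - y * x i) = 1 - y • diagonal x := by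
      ext i j
      by_cases hij : i = j
      · subst hij; simp
      · simp [hij]
    rw [e1, Matrix.mul_sub, Matrix.sub_mul, Matrix.mul_smul, Matrix.smul_mul, Matrix.mul_one]
    have e2 : V * Vᵀ = diagonal (aent L s) := by
      rw [hV, transpose_mul, diagonal_transpose, Matrix.mul_assoc, ← Matrix.mul_assoc U, hU2,
        Matrix.one_mul, diagonal_mul_diagonal]
      congr 1; funext i; exact Real.mul_self_sqrt (aent_pos hs i).le
    have e3 : V * diagonal x * Vᵀ = M := by
      calc V * diagonal x * Vᵀ = diagonal r * (U * diagonal x * Uᵀ) * diagonal r := by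
            rw [hV, transpose_mul, diagonal_transpose]; simp only [Matrix.mul_assoc]
        _ = diagonal r * diagonal (fun i => (r i)⁻¹) * M *
              (diagonal (fun i => (r i)⁻¹) * diagonal r) := by
            rw [← hXU, hXdef]; simp only [Matrix.mul_assoc]
        _ = M := by rw [hr1, hr2, Matrix.one_mul, Matrix.mul_one]
    rw [e2, e3, bmat]
  have hWu : IsUnit Wm := IsUnit.of_mul_eq_one V hWV
  have hxy : ∀ y ∈ Set.Icc (-1 : ℝ) 1, ∀ i, 0 < 1 - y * x i := by
    intro y hy
    have hp := posDef_conj (bmat_posDef h hs hy) hWu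
    rw [hB y, show Wm * (V * diagonal (fun i => 1 - y * x i) * Vᵀ) * Wmᵀ =
      Wm * V * diagonal (fun i => 1 - y * x i) * (Vᵀ * Wmᵀ) by simp only [Matrix.mul_assoc],
      hWV, hVTWT, Matrix.one_mul, Matrix.mul_one] at hp
    exact posDef_diagonal_iff.1 hp
  have hC : ∀ y ∈ Set.Icc (-1 : ℝ) 1,
      (bmat L M s y)⁻¹ = Wmᵀ * diagonal (fun i => (1 - y * x i)⁻¹) * Wm := by
    intro y hy
    apply inv_eq_right_inv
    rw [hB y]
    have e : diagonal (fun i => 1 - y * x i) * diagonal (fun i => (1 - y * x i)⁻¹) = 1 := by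
      rw [diagonal_mul_diagonal, ← diagonal_one]
      congr 1; funext i; exact mul_inv_cancel₀ (hxy y hy i).ne'
    calc V * diagonal (fun i => 1 - y * x i) * Vᵀ *
          (Wmᵀ * diagonal (fun i => (1 - y * x i)⁻¹) * Wm)
        = V * diagonal (fun i => 1 - y * x i) * (Vᵀ * Wmᵀ) *
          diagonal (fun i => (1 - y * x i)⁻¹) * Wm := by simp only [Matrix.mul_assoc]
      _ = 1 := by rw [hVTWT, Matrix.mul_one, Matrix.mul_assoc V, e, Matrix.mul_one, hVW]
  -- triangular factors
  have hZ : (Wm * Wmᵀ).PosDef := by simpa using posDef_conj PosDef.one hWu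
  obtain ⟨C2, hC2t, -, hC2⟩ := exists_lower_sq (posDef_conj hY hWu)
  obtain ⟨C1, hC1t, hC1u, hC1⟩ := exists_lower_sq hZ.inv
  have hC1inv : Invertible C1 := hC1u.invertible
  have hL1t : BlockTriangular C1⁻¹ OrderDual.toDual := blockTriangular_inv_of_blockTriangular hC1t
  have hZ1 : Wm * Wmᵀ = C1⁻¹ * (C1⁻¹)ᵀ := by
    rw [transpose_nonsing_inv, ← Matrix.mul_inv_rev, hC1, nonsing_inv_nonsing_inv _
      (isUnit_iff_ne_zero.2 hZ.det_pos.ne')]
  set c := fun i => C2 i i
  set l := fun i => C1⁻¹ i i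
  have hlow : ∀ y ∈ Set.Icc (-1 : ℝ) 1,
      ∑ i, c i ^ 2 * l i ^ 2 * ((1 - y * x i)⁻¹) ^ 2 ≤
      (Y * ((bmat L M s y)⁻¹ * (bmat L M s y)⁻¹)).trace := by
    intro y hy
    set Dd := diagonal fun i => (1 - y * x i)⁻¹
    set T := C2 * Dd * C1⁻¹ with hT
    have e : (Y * ((bmat L M s y)⁻¹ * (bmat L M s y)⁻¹)).trace = (T * Tᵀ).trace := by
      rw [hC y hy]
      calc (Y * (Wmᵀ * Dd * Wm * (Wmᵀ * Dd * Wm))).trace
          = ((Y * Wmᵀ * Dd * (Wm * Wmᵀ) * Dd) * Wm).trace := by simp only [Matrix.mul_assoc]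
        _ = (Wm * (Y * Wmᵀ * Dd * (Wm * Wmᵀ) * Dd)).trace := trace_mul_comm _ _
        _ = (C2ᵀ * (C2 * Dd * C1⁻¹ * (C1⁻¹)ᵀ * Dd)).trace := by
            rw [hZ1]
            have e2 : C2ᵀ * C2 = Wm * Y * Wmᵀ := hC2
            simp only [← Matrix.mul_assoc]
            rw [e2]
        _ = (C2 * Dd * C1⁻¹ * (C1⁻¹)ᵀ * Dd * C2ᵀ).trace := trace_mul_comm _ _
        _ = (T * Tᵀ).trace := by
            rw [hT, transpose_mul, transpose_mul, diagonal_transpose]
            simp only [Matrix.mul_assoc]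
            rfl
    rw [e]
    simp only [Matrix.trace, Matrix.diag, mul_apply (M := T), transpose_apply]
    refine sum_le_sum fun i _ => ?_
    refine le_trans (le_of_eq ?_)
      (single_le_sum (f := fun k => T i k * T i k) (fun k _ => mul_self_nonneg _) (mem_univ i))
    have hTi : T i i = c i * (1 - y * x i)⁻¹ * l i := by
      simp only [hT, mul_apply (M := C2 * Dd), Dd, mul_diagonal]
      refine (sum_eq_single i (fun k _ hk => ?_) (by simp)).trans rfl
      rcases lt_or_gt_of_ne hk with hlt | hlt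
      · rw [hL1t (i := k) (j := i) hlt, mul_zero]
      · rw [hC2t (i := i) (j := k) hlt, zero_mul, zero_mul]
    simp only [hTi]
    ring
  -- integrate in `y`
  have hint : ∀ i, ∫ y in (-1 : ℝ)..1, ((1 - y * x i)⁻¹) ^ 2 =
      2 / ((1 - 1 * x i) * (1 - -1 * x i)) := by
    intro i
    have hd : ∀ y ∈ Set.uIcc (-1 : ℝ) 1,
        HasDerivAt (fun y => y * (1 - y * x i)⁻¹) (((1 - y * x i)⁻¹) ^ 2) y := by
      intro y hy
      rw [Set.uIcc_of_le (by norm_num)] at hy
      have hne := (hxy y hy i).ne'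
      have := (hasDerivAt_id y).fun_mul
        ((((hasDerivAt_id y).mul_const (x i)).const_sub 1).fun_inv hne)
      refine this.congr_deriv ?_
      simp only [id]
      field_simp
      ring
    have hcont : ContinuousOn (fun y => ((1 - y * x i)⁻¹) ^ 2) (Set.uIcc (-1) 1) := by
      rw [Set.uIcc_of_le (by norm_num)]
      exact (ContinuousOn.inv₀ (by fun_prop) fun y hy => (hxy y hy i).ne').pow 2
    rw [intervalIntegral.integral_eq_sub_of_hasDerivAt hd hcont.intervalIntegrable]
    have h1 := (hxy 1 (by norm_num) i).ne'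
    have h2 := (hxy (-1) (by norm_num) i).ne'
    rw [eq_div_iff (mul_ne_zero h1 h2)]
    linear_combination (1 - -1 * x i) * inv_mul_cancel₀ h1 + (1 - 1 * x i) * inv_mul_cancel₀ h2
  have hcint : ∀ i, IntervalIntegrable (fun y => c i ^ 2 * l i ^ 2 * ((1 - y * x i)⁻¹) ^ 2)
      volume (-1) 1 := fun i =>
    (((ContinuousOn.inv₀ (by fun_prop) fun y hy => (hxy y hy i).ne').pow 2).intervalIntegrable_of_Icc
      (by norm_num)).const_mul _
  have hsum : ∑ i, c i ^ 2 * l i ^ 2 * (2 / ((1 - 1 * x i) * (1 - -1 * x i))) ≤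
      ∫ y in (-1 : ℝ)..1, (Y * ((bmat L M s y)⁻¹ * (bmat L M s y)⁻¹)).trace := by
    refine le_of_eq_of_le ?_ (intervalIntegral.integral_mono_on (by norm_num)
      (IntervalIntegrable.sum univ fun i _ => hcint i)
      ((continuousOn_gamIntegrand h hs Y).intervalIntegrable_of_Icc (by norm_num)) (fun y hy => by
        simpa [Finset.sum_apply] using hlow y hy))
    simp only [Finset.sum_apply]
    rw [intervalIntegral.integral_finsetSum fun i _ => hcint i]
    exact sum_congr rfl fun i _ => by rw [intervalIntegral.integral_const_mul, hint]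
  -- the determinants
  have hdetC2 : (∏ i, c i) ^ 2 = Wm.det ^ 2 * Y.det := by
    rw [← det_of_isLowerTriangular C2 hC2t, sq]
    have := congrArg Matrix.det hC2
    simp only [det_mul, det_transpose] at this
    rw [this]; ring
  have hdetL1 : (∏ i, l i) ^ 2 = Wm.det ^ 2 := by
    rw [← det_of_isLowerTriangular C1⁻¹ hL1t, sq]
    have := congrArg Matrix.det hZ1
    simp only [det_mul, det_transpose] at this
    rw [← this]; ring
  have hWV' : Wm.det * V.det = 1 := by rw [← det_mul, hWV, det_one]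
  have hdetB : ∀ y, (bmat L M s y).det = V.det ^ 2 * ∏ i, (1 - y * x i) := by
    intro y
    rw [hB y, det_mul, det_mul, det_diagonal, det_transpose]; ring
  have hxp : ∀ i, 0 < (1 - 1 * x i) * (1 - -1 * x i) := fun i =>
    mul_pos (hxy 1 (by norm_num) i) (hxy (-1) (by norm_num) i)
  have hW0 : Wm.det ≠ 0 := fun e => by simp [e] at hWV'
  have hc0 : ∀ i, c i ≠ 0 := by
    intro i e
    have : (∏ i, c i) ^ 2 = 0 := by rw [prod_eq_zero (mem_univ i) e]; ring
    rw [hdetC2] at this
    exact absurd this (mul_ne_zero (pow_ne_zero _ hW0) hY.det_pos.ne')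
  have hl0 : ∀ i, l i ≠ 0 := by
    intro i e
    have : (∏ i, l i) ^ 2 = 0 := by rw [prod_eq_zero (mem_univ i) e]; ring
    rw [hdetL1] at this
    exact absurd this (pow_ne_zero _ hW0)
  have hpos : ∀ i, 0 < c i ^ 2 * l i ^ 2 / ((1 - 1 * x i) * (1 - -1 * x i)) := fun i =>
    div_pos (mul_pos (by positivity [hc0 i]) (by positivity [hl0 i])) (hxp i)
  have hlog : ∑ i, (1 + Real.log (c i ^ 2 * l i ^ 2 / ((1 - 1 * x i) * (1 - -1 * x i)))) ≤
      ∑ i, c i ^ 2 * l i ^ 2 / ((1 - 1 * x i) * (1 - -1 * x i)) :=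
    sum_le_sum fun i _ => by linarith [Real.log_le_sub_one_of_pos (hpos i)]
  have hprod : ∏ i, (c i ^ 2 * l i ^ 2 / ((1 - 1 * x i) * (1 - -1 * x i))) =
      Y.det / ((bmat L M s 1).det * (bmat L M s (-1)).det) := by
    rw [prod_div_distrib, prod_mul_distrib, prod_pow, prod_pow, hdetC2, hdetL1, hdetB, hdetB,
      prod_mul_distrib]
    have p1 : ∏ i, (1 - 1 * x i) ≠ 0 := prod_ne_zero_iff.2 fun i _ => (hxy 1 (by norm_num) i).ne'
    have p2 : ∏ i, (1 - -1 * x i) ≠ 0 :=
      prod_ne_zero_iff.2 fun i _ => (hxy (-1) (by norm_num) i).ne'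
    have hV0 : V.det ≠ 0 := fun e => by simp [e] at hWV'
    rw [eq_inv_of_mul_eq_one_left hWV']
    field_simp
  rw [sum_add_distrib, ← Real.log_prod (fun i _ => (hpos i).ne'), hprod,
    Real.log_div hY.det_pos.ne' (mul_pos (bmat_det_pos h hs (by norm_num))
      (bmat_det_pos h hs (by norm_num))).ne',
    Real.log_mul (bmat_det_pos h hs (by norm_num)).ne' (bmat_det_pos h hs (by norm_num)).ne']
    at hlog
  simp only [sum_const, card_univ, Fintype.card_fin, nsmul_eq_mul, mul_one] at hlog
  have e2 : ∑ i, c i ^ 2 * l i ^ 2 * (2 / ((1 - 1 * x i) * (1 - -1 * x i))) =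
      2 * ∑ i, c i ^ 2 * l i ^ 2 / ((1 - 1 * x i) * (1 - -1 * x i)) := by
    rw [mul_sum]; exact sum_congr rfl fun i _ => by ring
  rw [e2] at hsum
  unfold gam ell
  linarith

end Vale.Agent.P371.Cal
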