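import Vale.Agent.P371.Cal.Pointwise

/-!
# P371 (calibration): the inequality at a fixed point of the path

With `V = ((q + 1) / q) Z` and the eigenvalues `z` of `Z`, the function
`F = s ^ (q - 1) tr ((V - U) (1 - s G))` is at most
`(1 / q) s ^ (q - 1) ∑ z ^ 2 / (z + s)` minus the derivative of a function that vanishes at both
ends.
-/

open Matrix Finset MeasureTheory
open scoped Topology

namespace Vale.Agent.P371.Cal

variable {N : ℕ} {L : Fin N → ℝ} {M : Matrix (Fin N) (Fin N) ℝ} {s q : ℝ}

set_option linter.unusedSectionVars false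

/-- `L ^ 2 - M ^ 2`. -/
noncomputable def umat (L : Fin N → ℝ) (M : Matrix (Fin N) (Fin N) ℝ) : Matrix (Fin N) (Fin N) ℝ :=
  diagonal (fun i => L i ^ 2) - M * M

/-- The integrand of the calibration applied to `V - U`. -/
noncomputable def fint (q : ℝ) (L : Fin N → ℝ) (M V : Matrix (Fin N) (Fin N) ℝ) (s : ℝ) : ℝ :=
  s ^ (q - 1) * ((V - umat L M).trace - s * gam L M s (V - umat L M))

/-- The local part of the telescoping function. -/
noncomputable def lam (L : Fin N → ℝ) (M : Matrix (Fin N) (Fin N) ℝ) (z : Fin N → ℝ) (s : ℝ) :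
    ℝ :=
  (umat L M).trace - ∑ i, z i + s * (ell L M s + ∑ i, Real.log (z i + s))

/-- The telescoping function. -/
noncomputable def psi (q : ℝ) (L : Fin N → ℝ) (M : Matrix (Fin N) (Fin N) ℝ) (z : Fin N → ℝ)
    (s : ℝ) : ℝ :=
  s ^ q / q * lam L M z s

/-- Its derivative. -/
noncomputable def psi' (q : ℝ) (L : Fin N → ℝ) (M : Matrix (Fin N) (Fin N) ℝ) (z : Fin N → ℝ)
    (s : ℝ) : ℝ :=
  s ^ (q - 1) * lam L M z s + s ^ q / q * ((ell L M s + ∑ i, Real.log (z i + s)) +
    s * (ell' L M s + ∑ i, (z i + s)⁻¹))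

lemma hasDerivAt_psi (h : Inside L M) (hq : 0 < q) {z : Fin N → ℝ} (hz : ∀ i, 0 ≤ z i)
    (hs : 0 < s) : HasDerivAt (psi q L M z) (psi' q L M z s) s := by
  have h1 : HasDerivAt (fun r => ∑ i, Real.log (z i + r)) (∑ i, (z i + s)⁻¹) s := by
    refine HasDerivAt.fun_sum fun i _ => ?_
    have := ((hasDerivAt_id s).const_add (z i)).log (by simp only [id]; linarith [hz i])
    simpa using this
  have h2 := ((hasDerivAt_id s).fun_mul ((hasDerivAt_ell h hs).fun_add h1)).const_add
    ((umat L M).trace - ∑ i, z i)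
  have h3 : HasDerivAt (fun r => r ^ q / q) (s ^ (q - 1)) s := by
    refine ((Real.hasDerivAt_rpow_const (p := q) (Or.inl hs.ne')).div_const q).congr_deriv ?_
    field_simp
  refine (h3.fun_mul h2).congr_deriv ?_
  simp only [psi', lam, id, one_mul]

lemma continuousOn_psi' (h : Inside L M) {ε S : ℝ} (hε : 0 < ε) (hq : 0 < q) {z : Fin N → ℝ}
    (hz : ∀ i, 0 ≤ z i) : ContinuousOn (psi' q L M z) (Set.Icc ε S) := by
  have hp : ∀ r ∈ Set.Icc ε S, 0 < r := fun r hr => hε.trans_le hr.1
  have hell : ContinuousOn (ell L M) (Set.Icc ε S) := fun r hr =>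
    (hasDerivAt_ell h (hp r hr)).continuousAt.continuousWithinAt
  have hinv : ∀ t ∈ Set.Icc (-1 : ℝ) 1,
      ContinuousOn (fun r => (bmat L M r t)⁻¹) (Set.Icc ε S) := fun t ht r hr =>
    (continuousAt_inv_of_det_ne_zero (bmat_det_pos h (hp r hr) ht).ne').comp_continuousWithinAt
      (f := fun r => bmat L M r t)
      ((Continuous.matrix_diagonal (A := fun r i => aent L r i) (by unfold aent; fun_prop)).sub
        continuous_const).continuousWithinAt
  have hd : ContinuousOn (fun r => diagonal fun i => 1 / (2 * aent L r i)) (Set.Icc ε S) :=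
    continuous_id.matrix_diagonal.comp_continuousOn (continuousOn_pi.2 fun i =>
      ContinuousOn.div continuousOn_const (by unfold aent; fun_prop)
        fun r hr => by have := aent_pos (L := L) (hp r hr) i; positivity)
  have hell' : ContinuousOn (ell' L M) (Set.Icc ε S) :=
    ((continuous_id.matrix_trace.comp_continuousOn ((hinv 1 (by norm_num)).mul hd)).neg).sub
      (continuous_id.matrix_trace.comp_continuousOn ((hinv (-1) (by norm_num)).mul hd))
  have hl : ContinuousOn (fun r => ∑ i, Real.log (z i + r)) (Set.Icc ε S) :=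
    continuousOn_finsetSum _ fun i _ => ContinuousOn.log (by fun_prop)
      fun r hr => by linarith [hz i, hp r hr]
  have hi : ContinuousOn (fun r => ∑ i, (z i + r)⁻¹) (Set.Icc ε S) :=
    continuousOn_finsetSum _ fun i _ => ContinuousOn.inv₀ (by fun_prop)
      fun r hr => by linarith [hz i, hp r hr]
  have hr1 : ContinuousOn (fun r : ℝ => r ^ (q - 1)) (Set.Icc ε S) :=
    continuousOn_id.rpow_const fun r hr => Or.inl (hp r hr).ne'
  have hr2 : ContinuousOn (fun r : ℝ => r ^ q / q) (Set.Icc ε S) :=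
    (continuousOn_id.rpow_const fun r _ => Or.inr hq.le).div_const q
  unfold psi' lam
  exact (hr1.mul (continuousOn_const.add (continuousOn_id.mul (hell.add hl)))).add
    (hr2.mul ((hell.add hl).add (continuousOn_id.mul (hell'.add hi))))

/-- The algebraic core. -/
lemma fint_add_psi'_le (h : Inside L M) (hq : 0 < q) (hs : 0 < s)
    {Z : Matrix (Fin N) (Fin N) ℝ} (hZ : Z.PosSemidef) :
    fint q L M (((q + 1) / q) • Z) s + psi' q L M hZ.1.eigenvalues s ≤
      1 / q * (s ^ (q - 1) * ∑ i, hZ.1.eigenvalues i ^ 2 / (hZ.1.eigenvalues i + s)) := by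
  set z := hZ.1.eigenvalues with hzdef
  have hz : ∀ i, 0 ≤ z i := hZ.eigenvalues_nonneg
  obtain ⟨U, hU1, hU2, hZU⟩ := exists_diag hZ.1
  have hY : (Z + s • 1).PosDef := PosDef.posSemidef_add hZ (PosDef.one.smul hs)
  have hdet : (Z + s • 1).det = ∏ i, (z i + s) := by
    have e : Z + s • 1 = U * diagonal (fun i => z i + s) * Uᵀ := by
      rw [← diagonal_add, Matrix.mul_add, Matrix.add_mul, ← hZU]
      rw [show (diagonal fun _ : Fin N => s) = s • (1 : Matrix (Fin N) (Fin N) ℝ) by
        rw [smul_one_eq_diagonal], Matrix.mul_smul, Matrix.mul_one, Matrix.smul_mul, hU2]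
    rw [e, det_conj hU1, det_diagonal]
  have hlog : Real.log (Z + s • 1).det = ∑ i, Real.log (z i + s) := by
    rw [hdet, Real.log_prod]
    exact fun i _ => by linarith [hz i]
  have hsum : Z.trace = ∑ i, z i := by simpa using hZ.1.trace_eq_sum_eigenvalues
  have hw : ∑ i, z i ^ 2 / (z i + s) = ∑ i, z i - s * N + s ^ 2 * ∑ i, (z i + s)⁻¹ := by
    rw [mul_sum, ← sub_eq_zero]
    have : (s * N : ℝ) = ∑ _i : Fin N, s := by simp [mul_comm]
    rw [this, ← sum_sub_distrib, ← sum_add_distrib, ← sum_sub_distrib]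
    refine sum_eq_zero fun i _ => ?_
    have : z i + s ≠ 0 := by linarith [hz i]
    field_simp
    ring
  -- the three inequalities
  have i1 : gam L M s (umat L M) + s * gam L M s 1 ≤ N := by
    rw [← gam_add_smul h hs]
    convert gam_sq_le h hs using 2
    unfold umat
    rw [← diagonal_add, smul_one_eq_diagonal]
    abel
  have i2 := gam_one_le h hs
  have i3 : N + ∑ i, Real.log (z i + s) + ell L M s ≤ gam L M s Z + s * gam L M s 1 := by
    rw [← gam_add_smul h hs, ← hlog]
    exact le_gam h hs hY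
  have e : gam L M s (((q + 1) / q) • Z - umat L M) =
      (q + 1) / q * gam L M s Z - gam L M s (umat L M) := by
    have h0 : gam L M s 0 = 0 := by simp [gam]
    have ea := gam_add_smul h hs (((q + 1) / q) • Z) (umat L M) (-1)
    have eb := gam_add_smul h hs 0 Z ((q + 1) / q)
    rw [zero_add, h0, zero_add] at eb
    rw [show ((q + 1) / q) • Z + (-1 : ℝ) • umat L M = ((q + 1) / q) • Z - umat L M by
      rw [neg_one_smul, sub_eq_add_neg], eb] at ea
    linarith
  have hpow : s ^ q = s * s ^ (q - 1) := by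
    rw [mul_comm, ← Real.rpow_add_one hs.ne', sub_add_cancel]
  simp only [fint, psi', lam, hpow, e, hw, trace_sub, trace_smul, smul_eq_mul, hsum]
  rw [← sub_nonneg]
  set P := s ^ (q - 1)
  set D := gam L M s Z + s * gam L M s 1 - (N + ∑ i, Real.log (z i + s) + ell L M s) with hD
  have hP : 0 ≤ P := Real.rpow_nonneg hs.le _
  have key : 0 ≤ P * s * ((N - (gam L M s (umat L M) + s * gam L M s 1)) + D) +
      P * s / q * (D + s * (-ell' L M s - gam L M s 1)) := by
    have hD0 : 0 ≤ D := by rw [hD]; linarith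
    refine add_nonneg (mul_nonneg (mul_nonneg hP hs.le) (by linarith)) ?_
    exact mul_nonneg (div_nonneg (mul_nonneg hP hs.le) hq.le)
      (add_nonneg hD0 (mul_nonneg hs.le (by linarith)))
  refine key.trans_eq ?_
  rw [hD]
  field_simp
  ring

lemma log_le_cubic {y : ℝ} (hy : 0 < y) :
    Real.log y ≤ y ^ 3 / 3 - 3 / 2 * y ^ 2 + 3 * y - 11 / 6 := by
  set g : ℝ → ℝ := fun y => y ^ 3 / 3 - 3 / 2 * y ^ 2 + 3 * y - 11 / 6 - Real.log y with hg
  have hd : ∀ x : ℝ, 0 < x → HasDerivAt g ((x - 1) ^ 3 / x) x := by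
    intro x hx
    have := (((((hasDerivAt_pow 3 x).div_const 3).sub ((hasDerivAt_pow 2 x).const_mul (3 / 2))).add
      ((hasDerivAt_id x).const_mul 3)).sub_const (11 / 6)).sub (Real.hasDerivAt_log hx.ne')
    refine this.congr_deriv ?_
    field_simp
    ring
  have h1 : g 1 = 0 := by simp [hg]; norm_num
  suffices 0 ≤ g y by simp only [hg] at this; linarith
  rw [← h1]
  rcases le_or_gt 1 y with hle | hgt
  · refine (monotoneOn_of_hasDerivWithinAt_nonneg (f' := fun x => (x - 1) ^ 3 / x)
      (convex_Ici 1) ?_ (fun x hx => ?_) fun x hx => ?_) Set.self_mem_Ici hle hle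
    · exact fun x hx => (hd x (lt_of_lt_of_le one_pos hx)).continuousAt.continuousWithinAt
    · rw [interior_Ici, Set.mem_Ioi] at hx
      exact (hd x (by linarith)).hasDerivWithinAt
    · rw [interior_Ici, Set.mem_Ioi] at hx
      exact div_nonneg (pow_nonneg (by linarith) 3) (by linarith)
  · refine (antitoneOn_of_hasDerivWithinAt_nonpos (f' := fun x => (x - 1) ^ 3 / x)
      (convex_Icc y 1) ?_ (fun x hx => ?_) fun x hx => ?_) ⟨le_rfl, hgt.le⟩ ⟨hgt.le, le_rfl⟩ hgt.le
    · exact fun x hx => (hd x (hy.trans_le hx.1)).continuousAt.continuousWithinAt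
    · rw [interior_Icc] at hx
      exact (hd x (hy.trans hx.1)).hasDerivWithinAt
    · rw [interior_Icc] at hx
      exact div_nonpos_of_nonpos_of_nonneg (Odd.pow_nonpos ⟨1, rfl⟩ (by linarith [hx.2]))
        (by linarith [hx.1])

/-- A cubic bound for the log-determinant. -/
lemma log_det_le {P : Matrix (Fin N) (Fin N) ℝ} (hP : P.PosDef) {r : ℝ} (hr : 0 < r) :
    Real.log P.det ≤ N * Real.log r + (P * P * P).trace / (3 * r ^ 3) -
      3 / (2 * r ^ 2) * (P * P).trace + 3 / r * P.trace - 11 / 6 * N := by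
  obtain ⟨U, hU1, -, hPU⟩ := exists_diag hP.1
  set w := hP.1.eigenvalues
  have hw : ∀ i, 0 < w i := fun i => hP.eigenvalues_pos i
  have t1 : P.trace = ∑ i, w i := by rw [hPU, trace_conj hU1, trace_diagonal]
  have t2 : (P * P).trace = ∑ i, w i ^ 2 := by
    rw [hPU, conj_mul_conj hU1, trace_conj hU1, diagonal_mul_diagonal, trace_diagonal]
    exact sum_congr rfl fun i _ => by ring
  have t3 : (P * P * P).trace = ∑ i, w i ^ 3 := by
    rw [hPU, conj_mul_conj hU1, conj_mul_conj hU1, trace_conj hU1, diagonal_mul_diagonal,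
      diagonal_mul_diagonal, trace_diagonal]
    exact sum_congr rfl fun i _ => by ring
  have hd : P.det = ∏ i, w i := by rw [hPU, det_conj hU1, det_diagonal]
  rw [hd, Real.log_prod (fun i _ => (hw i).ne'), t1, t2, t3]
  have hN : (N : ℝ) = ∑ _i : Fin N, (1 : ℝ) := by simp
  rw [hN]
  simp only [Finset.mul_sum, Finset.sum_mul, Finset.sum_div, ← sum_add_distrib, ← sum_sub_distrib]
  refine sum_le_sum fun i _ => ?_
  have := log_le_cubic (div_pos (hw i) hr)
  rw [Real.log_div (hw i).ne' hr.ne'] at this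
  refine le_trans (by linarith) (le_of_eq (sub_eq_zero.1 (show
    (Real.log r + ((w i / r) ^ 3 / 3 - 3 / 2 * (w i / r) ^ 2 + 3 * (w i / r) - 11 / 6)) -
      (1 * Real.log r + w i ^ 3 / (3 * r ^ 3) - 3 / (2 * r ^ 2) * w i ^ 2 + 3 / r * w i -
        11 / 6 * 1) = 0 by ring)))

/-- The telescoping function is almost nonnegative at infinity. -/
lemma neg_le_psi (h : Inside L M) (hq : 0 < q) {z : Fin N → ℝ} (hz : ∀ i, 0 ≤ z i)
    (hs : 0 < s) (hs' : ∀ i, L i ^ 2 ≤ s) :
    -(s ^ (q - 1) / q * (∑ i, L i ^ 2 * (M * M) i i + (∑ i, z i) ^ 2)) ≤ psi q L M z s := by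
  set r := Real.sqrt s with hr
  have hr0 : 0 < r := Real.sqrt_pos.2 hs
  have hr2 : r ^ 2 = s := Real.sq_sqrt hs.le
  set a := aent L s with ha
  set A := diagonal a with hA
  have hp := log_det_le (bmat_posDef h hs (t := 1) (by norm_num)) hr0
  have hm := log_det_le (bmat_posDef h hs (t := -1) (by norm_num)) hr0
  have b1 : bmat L M s 1 = A - M := by simp [bmat, hA, ha]
  have b2 : bmat L M s (-1) = A + M := by simp [bmat, hA, ha]
  rw [b1] at hp; rw [b2] at hm
  have hMM : ∀ i, 0 ≤ (M * M) i i := fun i => by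
    have : Mᵀ = M := by simpa using h.herm.eq
    rw [mul_apply]
    refine sum_nonneg fun j _ => ?_
    rw [show M j i = M i j from congrFun (congrFun this i) j]
    exact mul_self_nonneg _
  have e1 : (A - M).trace + (A + M).trace = ∑ i, 2 * a i := by
    rw [← trace_add, sub_add_add_cancel, trace_add, hA, trace_diagonal, ← sum_add_distrib]
    exact sum_congr rfl fun i _ => by ring
  have e2 : ((A - M) * (A - M)).trace + ((A + M) * (A + M)).trace =
      ∑ i, (2 * a i ^ 2 + 2 * (M * M) i i) := by
    rw [← trace_add, show (A - M) * (A - M) + (A + M) * (A + M) =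
      A * A + A * A + (M * M + M * M) by noncomm_ring, trace_add, trace_add, trace_add, hA,
      diagonal_mul_diagonal, trace_diagonal]
    simp only [Matrix.trace, Matrix.diag, ← sum_add_distrib]
    exact sum_congr rfl fun i _ => by ring
  have e3 : ((A - M) * (A - M) * (A - M)).trace + ((A + M) * (A + M) * (A + M)).trace =
      ∑ i, (2 * a i ^ 3 + 6 * (a i * (M * M) i i)) := by
    rw [← trace_add, show (A - M) * (A - M) * (A - M) + (A + M) * (A + M) * (A + M) =
      A * A * A + A * A * A + (A * M * M + A * M * M) + (M * A * M + M * A * M) +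
        (M * M * A + M * M * A) by noncomm_ring]
    simp only [trace_add]
    rw [show (M * A * M).trace = (A * M * M).trace by rw [trace_mul_cycle, trace_mul_comm,
      Matrix.mul_assoc],
      show (M * M * A).trace = (A * M * M).trace by rw [trace_mul_cycle A M M, trace_mul_cycle M A M],
      hA, diagonal_mul_diagonal, diagonal_mul_diagonal, trace_diagonal, Matrix.mul_assoc,
      show (diagonal a * (M * M)).trace = ∑ i, a i * (M * M) i i by
        simp [Matrix.trace, diagonal_mul]]
    simp only [← sum_add_distrib]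
    exact sum_congr rfl fun i _ => by ring
  have hlogP : Real.log (A - M).det + Real.log (A + M).det ≤
      N * Real.log s + ((umat L M).trace / s + (∑ i, L i ^ 2 * (M * M) i i) / s ^ 2) := by
    have hN : (N : ℝ) = ∑ _i : Fin N, (1 : ℝ) := by simp
    have hls : Real.log s = 2 * Real.log r := by
      rw [← hr2, Real.log_pow]; push_cast; ring
    have hS : (((A - M) * (A - M) * (A - M)).trace +
          ((A + M) * (A + M) * (A + M)).trace) / (3 * r ^ 3) -
        3 / (2 * r ^ 2) * (((A - M) * (A - M)).trace + ((A + M) * (A + M)).trace) +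
        3 / r * ((A - M).trace + (A + M).trace) - 11 / 3 * N ≤
        (umat L M).trace / s + (∑ i, L i ^ 2 * (M * M) i i) / s ^ 2 := by
      rw [e1, e2, e3, hN]
      simp only [umat, Matrix.trace, Matrix.diag, Matrix.sub_apply, diagonal_apply_eq,
        ← sum_sub_distrib, Finset.mul_sum, Finset.sum_div, ← sum_add_distrib]
      refine sum_le_sum fun i _ => ?_
      set e := a i / r - 1 with he
      have hai : a i = (1 + e) * r := by rw [he]; field_simp; ring
      have he0 : 0 ≤ e := by
        rw [he, sub_nonneg, le_div_iff₀ hr0, one_mul]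
        exact Real.sqrt_le_sqrt (by nlinarith [sq_nonneg (L i)])
      have he2 : L i ^ 2 = (2 * e + e ^ 2) * s := by
        have := aent_sq (L := L) hs.le i
        rw [← ha, hai, mul_pow, hr2] at this
        linarith
      have he1 : e ≤ 1 := by nlinarith [hs' i, mul_nonneg he0 he0]
      rw [hai, he2, ← hr2]
      have hmm := hMM i
      rw [← sub_nonneg]
      have ev : 0 ≤ e ^ 2 * (2 - 2 / 3 * e) + e ^ 2 / r ^ 2 * (M * M) i i := by
        refine add_nonneg (mul_nonneg (sq_nonneg _) (by linarith)) ?_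
        exact mul_nonneg (div_nonneg (sq_nonneg _) (sq_nonneg _)) hmm
      refine ev.trans_eq ?_
      field_simp
      ring
    rw [hls]
    generalize ((A - M) * (A - M) * (A - M)).trace = a3, ((A + M) * (A + M) * (A + M)).trace = b3,
      ((A - M) * (A - M)).trace = a2, ((A + M) * (A + M)).trace = b2',
      (A - M).trace = a1, (A + M).trace = b1' at hp hm hS ⊢
    rw [add_div, mul_add, mul_add] at hS
    linarith
  have hlogY : N * Real.log s + (∑ i, z i) / s - (∑ i, z i) ^ 2 / s ^ 2 ≤
      ∑ i, Real.log (z i + s) := by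
    have h1 : ∀ i, Real.log s + z i / s - z i ^ 2 / s ^ 2 ≤ Real.log (z i + s) := by
      intro i
      have hy : 0 ≤ z i / s := div_nonneg (hz i) hs.le
      have := Real.le_log_one_add_of_nonneg hy
      rw [show z i + s = s * (1 + z i / s) by field_simp; ring,
        Real.log_mul hs.ne' (by positivity)]
      have h2 : z i / s - (z i / s) ^ 2 ≤ 2 * (z i / s) / (z i / s + 2) := by
        rw [le_div_iff₀ (by positivity)]
        nlinarith [pow_nonneg hy 3, pow_nonneg hy 2]
      rw [div_pow] at h2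
      linarith
    refine le_trans ?_ (sum_le_sum fun i _ => h1 i)
    rw [sum_sub_distrib, sum_add_distrib, ← Finset.sum_div, ← Finset.sum_div]
    simp only [sum_const, card_univ, Fintype.card_fin, nsmul_eq_mul]
    gcongr
    exact Finset.sum_sq_le_sq_sum_of_nonneg fun i _ => hz i
  have hlam : -((∑ i, L i ^ 2 * (M * M) i i + (∑ i, z i) ^ 2) / s) ≤ lam L M z s := by
    have hell : ell L M s = -(Real.log (A - M).det + Real.log (A + M).det) := by
      rw [ell, b1, b2]; ring
    have := mul_le_mul_of_nonneg_left (add_le_add (neg_le_neg hlogP) hlogY) hs.le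
    unfold lam
    rw [hell]
    refine le_trans (le_of_eq ?_) (add_le_add le_rfl this)
    field_simp
    ring
  have := mul_le_mul_of_nonneg_left hlam (div_nonneg (Real.rpow_nonneg hs.le q) hq.le)
  refine le_trans (le_of_eq ?_) this
  rw [Real.rpow_sub_one hs.ne']
  field_simp

/-- The telescoping function is almost nonpositive at zero. -/
lemma psi_le (h : Inside L M) (hq : 0 < q) {z : Fin N → ℝ} (hz : ∀ i, 0 ≤ z i)
    (hs : 0 < s) (hs1 : s ≤ 1) {K : ℝ} (hK : ∀ i, L i ^ 2 + 1 ≤ K ^ 2) (hK0 : 0 < K) :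
    psi q L M z s ≤ s ^ q / q *
      ((∑ i, L i ^ 2) + ∑ i, z i + 2 * N * (|Real.log (2 * K)| + 1)) := by
  refine mul_le_mul_of_nonneg_left ?_ (div_nonneg (Real.rpow_nonneg hs.le q) hq.le)
  have hc : ∀ i, s / (2 * K) ≤ aent L s i - L i := by
    intro i
    have ha := aent_pos (L := L) hs i
    have h1 : aent L s i ≤ K := by
      refine Real.sqrt_le_iff.2 ⟨hK0.le, ?_⟩
      linarith [hK i]
    have h2 := lt_aent h.pos hs i
    have h3 := aent_sq (L := L) hs.le i
    rw [div_le_iff₀ (by positivity)]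
    nlinarith [h.pos i]
  have hlb : ∀ t : ℝ, t = 1 ∨ t = -1 →
      N * Real.log (s / (2 * K)) ≤ Real.log (bmat L M s t).det := by
    intro t ht
    have hmem : t ∈ Set.Icc (-1 : ℝ) 1 := by rcases ht with rfl | rfl <;> norm_num
    have hPD := bmat_posDef h hs hmem
    have hps : (bmat L M s t - (s / (2 * K)) • 1).PosSemidef := by
      have e : bmat L M s t - (s / (2 * K)) • 1 =
          diagonal (fun i => aent L s i - L i - s / (2 * K)) + (diagonal L - t • M) := by
        ext i j
        by_cases hij : i = j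
        · subst hij; simp [bmat]; ring
        · simp [bmat, hij]
      rw [e]
      refine (posSemidef_diagonal_iff.2 fun i => sub_nonneg.2 (hc i)).add ?_
      rcases ht with rfl | rfl
      · simpa using h.sub
      · simpa [add_comm] using h.add
    obtain ⟨U, hU1, -, hBU⟩ := exists_diag hPD.1
    have hd := posSemidef_conj hps Uᵀ
    rw [transpose_transpose, Matrix.mul_sub, Matrix.sub_mul, Matrix.mul_smul, Matrix.smul_mul,
      Matrix.mul_one, hU1, show Uᵀ * bmat L M s t * U = diagonal hPD.1.eigenvalues by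
        conv_lhs => rw [hBU]
        calc Uᵀ * (U * diagonal hPD.1.eigenvalues * Uᵀ) * U
            = Uᵀ * U * diagonal hPD.1.eigenvalues * (Uᵀ * U) := by simp only [Matrix.mul_assoc]
          _ = _ := by rw [hU1, Matrix.one_mul, Matrix.mul_one]] at hd
    have hev : ∀ i, s / (2 * K) ≤ hPD.1.eigenvalues i := fun i => by
      have := hd.diag_nonneg (i := i)
      simpa using this
    rw [show (bmat L M s t).det = ∏ i, hPD.1.eigenvalues i by
      conv_lhs => rw [hBU]
      rw [det_conj hU1, det_diagonal], Real.log_prod (fun i _ => (hPD.eigenvalues_pos i).ne')]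
    calc (N : ℝ) * Real.log (s / (2 * K)) = ∑ _i : Fin N, Real.log (s / (2 * K)) := by simp
      _ ≤ _ := sum_le_sum fun i _ => Real.log_le_log (by positivity) (hev i)
  have h1 := hlb 1 (Or.inl rfl)
  have h2 := hlb (-1) (Or.inr rfl)
  have h3 : (umat L M).trace ≤ ∑ i, L i ^ 2 := by
    rw [umat, trace_sub, trace_diagonal]
    have : 0 ≤ (M * M).trace := by
      have hM : Mᵀ = M := by simpa using h.herm.eq
      nth_rw 1 [← hM]
      simp only [Matrix.trace, Matrix.diag, mul_apply, transpose_apply]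
      exact sum_nonneg fun i _ => sum_nonneg fun j _ => mul_self_nonneg _
    linarith
  have h4 : ∑ i, Real.log (z i + s) ≤ ∑ i, z i := sum_le_sum fun i _ => by
    linarith [Real.log_le_sub_one_of_pos (show 0 < z i + s by linarith [hz i])]
  have hzs : 0 ≤ ∑ i, z i := sum_nonneg fun i _ => hz i
  have h5 : -(s * Real.log (s / (2 * K))) ≤ |Real.log (2 * K)| + 1 := by
    rw [Real.log_div hs.ne' (by positivity)]
    have := Real.log_le_sub_one_of_pos (inv_pos.2 hs)
    rw [Real.log_inv] at this
    have h6 : s * -Real.log s ≤ s * (s⁻¹ - 1) := mul_le_mul_of_nonneg_left this hs.le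
    rw [mul_sub, mul_inv_cancel₀ hs.ne'] at h6
    nlinarith [le_abs_self (Real.log (2 * K)), abs_nonneg (Real.log (2 * K))]
  have h7 : s * (ell L M s + ∑ i, Real.log (z i + s)) ≤
      2 * N * (|Real.log (2 * K)| + 1) + ∑ i, z i := by
    have h8 := mul_le_mul_of_nonneg_left (show ell L M s ≤ -(2 * N * Real.log (s / (2 * K))) by
      unfold ell; linarith) hs.le
    have h9 := mul_le_mul_of_nonneg_left h4 hs.le
    have h10 := mul_le_mul_of_nonneg_left h5 (show (0 : ℝ) ≤ 2 * N by positivity)
    nlinarith [mul_le_mul_of_nonneg_right hs1 hzs]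
  unfold lam
  linarith

end Vale.Agent.P371.Cal
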