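import Mathlib

/-!
# P371 (calibration): calculus and linear algebra of real matrices

Derivatives of the inverse and of the log-determinant along a curve given entrywise, the
diagonalization of a symmetric matrix, and triangular square roots.
-/

open Matrix Finset Filter
open scoped Topology

namespace Vale.Agent.P371.Cal

variable {n : Type*} [Fintype n] [DecidableEq n]

set_option linter.unusedSectionVars false

/-- Entrywise derivative of a matrix valued curve. -/
def HasMDeriv (B : ℝ → Matrix n n ℝ) (B' : Matrix n n ℝ) (S : Set ℝ) (x : ℝ) : Prop :=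
  ∀ i j, HasDerivWithinAt (fun y => B y i j) (B' i j) S x

lemma hasMDeriv_const (A : Matrix n n ℝ) (S : Set ℝ) (x : ℝ) :
    HasMDeriv (fun _ => A) 0 S x := fun i j => hasDerivWithinAt_const x S (A i j)

lemma HasMDeriv.mul {A B : ℝ → Matrix n n ℝ} {A' B' : Matrix n n ℝ} {S : Set ℝ} {x : ℝ}
    (hA : HasMDeriv A A' S x) (hB : HasMDeriv B B' S x) :
    HasMDeriv (fun y => A y * B y) (A' * B x + A x * B') S x := by
  intro i j
  simp only [mul_apply, Matrix.add_apply, ← sum_add_distrib]
  exact HasDerivWithinAt.fun_sum fun k _ => (hA i k).fun_mul (hB k j)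

lemma HasMDeriv.trace {A : ℝ → Matrix n n ℝ} {A' : Matrix n n ℝ} {S : Set ℝ} {x : ℝ}
    (hA : HasMDeriv A A' S x) : HasDerivWithinAt (fun y => (A y).trace) A'.trace S x := by
  simp only [Matrix.trace, Matrix.diag]
  exact HasDerivWithinAt.fun_sum fun i _ => hA i i

lemma continuousAt_inv_of_det_ne_zero {A : Matrix n n ℝ} (h : A.det ≠ 0) :
    ContinuousAt Inv.inv A := by
  refine continuousAt_matrix_inv A ?_
  have e : (Ring.inverse : ℝ → ℝ) = Inv.inv := funext fun r => Ring.inverse_eq_inv r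
  rw [e]
  exact continuousAt_inv₀ h

lemma HasMDeriv.inv {B : ℝ → Matrix n n ℝ} {B' : Matrix n n ℝ} {S : Set ℝ} {x : ℝ}
    (hB : HasMDeriv B B' S x) (hdet : (B x).det ≠ 0) :
    HasMDeriv (fun y => (B y)⁻¹) (-((B x)⁻¹ * B' * (B x)⁻¹)) S x := by
  have hc : ContinuousWithinAt B S x :=
    tendsto_pi_nhds.2 fun i => tendsto_pi_nhds.2 fun j => (hB i j).continuousWithinAt
  have hci : ContinuousWithinAt (fun y => (B y)⁻¹) S x :=
    (continuousAt_inv_of_det_ne_zero hdet).comp_continuousWithinAt hc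
  intro i j
  rw [hasDerivWithinAt_iff_tendsto_slope]
  set l := 𝓝[S \ {x}] x with hl
  have hle : l ≤ 𝓝[S] x := nhdsWithin_mono _ Set.sdiff_subset
  have hs : Tendsto (fun y => (y - x)⁻¹ • (B y - B x)) l (𝓝 B') := by
    refine tendsto_pi_nhds.2 fun a => tendsto_pi_nhds.2 fun b => ?_
    exact (hasDerivWithinAt_iff_tendsto_slope.1 (hB a b)).congr fun y => by
      simp [slope, vsub_eq_sub]
  have ht : Tendsto (fun y => -((B y)⁻¹ * ((y - x)⁻¹ • (B y - B x)) * (B x)⁻¹)) l
      (𝓝 (-((B x)⁻¹ * B' * (B x)⁻¹))) := by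
    refine Tendsto.neg (Tendsto.mul ?_ tendsto_const_nhds)
    exact Tendsto.mul (hci.mono_left hle) hs
  have ht' := tendsto_pi_nhds.1 (tendsto_pi_nhds.1 ht i) j
  refine ht'.congr' ?_
  have hev : ∀ᶠ y in l, (B y).det ≠ 0 :=
    hle ((continuous_id.matrix_det.continuousAt.comp_continuousWithinAt hc).eventually_ne hdet)
  filter_upwards [hev] with y hy
  have u1 : IsUnit (B y).det := isUnit_iff_ne_zero.2 hy
  have u2 : IsUnit (B x).det := isUnit_iff_ne_zero.2 hdet
  have e : (B y)⁻¹ * (B y - B x) * (B x)⁻¹ = (B x)⁻¹ - (B y)⁻¹ := by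
    rw [Matrix.mul_sub, Matrix.sub_mul, nonsing_inv_mul _ u1, Matrix.one_mul, Matrix.mul_assoc,
      mul_nonsing_inv _ u2, Matrix.mul_one]
  rw [Matrix.mul_smul, Matrix.smul_mul, e]
  simp [slope, vsub_eq_sub]
  ring

lemma differentiable_det :
    Differentiable ℝ fun A : n → n → ℝ => (Matrix.of A).det := by
  simp only [det_apply, Units.smul_def, zsmul_eq_mul, of_apply]
  fun_prop

lemma HasMDeriv.log_det {B : ℝ → Matrix n n ℝ} {B' : Matrix n n ℝ} {S : Set ℝ} {x : ℝ}
    (hB : HasMDeriv B B' S x) (hdet : 0 < (B x).det) :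
    HasDerivWithinAt (fun y => Real.log (B y).det) ((B x)⁻¹ * B').trace S x := by
  set F := fun A : n → n → ℝ => (Matrix.of A).det
  set b : ℝ → n → n → ℝ := fun y i j => B y i j
  set b' : n → n → ℝ := fun i j => B' i j
  have hb : HasDerivWithinAt b b' S x :=
    hasDerivWithinAt_pi.2 fun i => hasDerivWithinAt_pi.2 fun j => hB i j
  have hF := (differentiable_det (n := n) (b x)).hasFDerivAt
  have hline : HasDerivAt (fun r : ℝ => b x + r • b') b' 0 := by
    simpa using ((hasDerivAt_id (0 : ℝ)).smul_const b').const_add (b x)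
  have h1 : HasDerivAt (fun r : ℝ => F (b x + r • b')) (fderiv ℝ F (b x) b') 0 := by
    have hF' : HasFDerivAt F (fderiv ℝ F (b x)) (b x + (0 : ℝ) • b') := by simpa using hF
    exact hF'.comp_hasDerivAt 0 hline
  set P := (det (1 + (Polynomial.X : Polynomial ℝ) •
    ((B x)⁻¹ * B').map Polynomial.C)).divX.divX
  have h2 : HasDerivAt (fun r : ℝ => F (b x + r • b'))
      ((B x).det * ((B x)⁻¹ * B').trace) 0 := by
    have e : ∀ r : ℝ, F (b x + r • b') =
        (B x).det * (1 + ((B x)⁻¹ * B').trace * r + P.eval r * r ^ 2) := by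
      intro r
      rw [← det_one_add_smul, ← det_mul, Matrix.mul_add, Matrix.mul_one, Matrix.mul_smul,
        ← Matrix.mul_assoc, mul_nonsing_inv _ (isUnit_iff_ne_zero.2 hdet.ne'), Matrix.one_mul]
      rfl
    simp only [e]
    have hd := (((hasDerivAt_id (0 : ℝ)).const_mul ((B x)⁻¹ * B').trace).const_add 1).add
      ((P.hasDerivAt 0).mul ((hasDerivAt_id (0 : ℝ)).pow 2))
    refine (hd.const_mul (B x).det).congr_deriv ?_
    simp
  have h3 := hF.comp_hasDerivWithinAt x hb
  rw [h1.unique h2] at h3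
  have h4 := HasDerivWithinAt.log (f := fun y => (B y).det) h3 hdet.ne'
  refine h4.congr_deriv ?_
  field_simp

/-- A symmetric matrix is an orthogonal conjugate of a diagonal one. -/
lemma exists_diag {A : Matrix n n ℝ} (hA : A.IsHermitian) :
    ∃ U : Matrix n n ℝ, Uᵀ * U = 1 ∧ U * Uᵀ = 1 ∧ A = U * diagonal hA.eigenvalues * Uᵀ := by
  refine ⟨hA.eigenvectorUnitary, ?_, ?_, ?_⟩
  · simpa [star_eq_conjTranspose] using Unitary.coe_star_mul_self hA.eigenvectorUnitary
  · simpa [star_eq_conjTranspose] using Unitary.coe_mul_star_self hA.eigenvectorUnitary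
  · conv_lhs => rw [hA.spectral_theorem]
    simp [Unitary.conjStarAlgAut_apply, star_eq_conjTranspose]

lemma trace_conj {U : Matrix n n ℝ} (hU : Uᵀ * U = 1) (B : Matrix n n ℝ) :
    (U * B * Uᵀ).trace = B.trace := by
  rw [trace_mul_cycle, hU, Matrix.one_mul]

lemma det_conj {U : Matrix n n ℝ} (hU : Uᵀ * U = 1) (B : Matrix n n ℝ) :
    (U * B * Uᵀ).det = B.det := by
  have h : Uᵀ.det * U.det = 1 := by rw [← det_mul, hU, det_one]
  rw [det_mul, det_mul]
  linear_combination B.det * h

lemma conj_mul_conj {U : Matrix n n ℝ} (hU : Uᵀ * U = 1) (B C : Matrix n n ℝ) :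
    U * B * Uᵀ * (U * C * Uᵀ) = U * (B * C) * Uᵀ := by
  simp only [Matrix.mul_assoc]
  rw [← Matrix.mul_assoc Uᵀ U, hU, Matrix.one_mul]

lemma posDef_conj {A V : Matrix n n ℝ} (hA : A.PosDef) (hV : IsUnit V) :
    (V * A * Vᵀ).PosDef := by
  have h := hA.mul_mul_conjTranspose_same (B := V)
    (Matrix.vecMul_injective_iff_isUnit.2 hV)
  simpa using h

lemma posSemidef_conj {m : Type*} [Fintype m] {A : Matrix n n ℝ} (hA : A.PosSemidef)
    (V : Matrix m n ℝ) : (V * A * Vᵀ).PosSemidef := by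
  simpa using hA.mul_mul_conjTranspose_same V

/-- A positive definite matrix is `Cᵀ * C` with `C` lower triangular. -/
lemma exists_lower_sq {N : ℕ} {S : Matrix (Fin N) (Fin N) ℝ} (hS : S.PosDef) :
    ∃ C : Matrix (Fin N) (Fin N) ℝ,
      BlockTriangular C OrderDual.toDual ∧ IsUnit C ∧ Cᵀ * C = S := by
  have hi : S⁻¹.PosDef := hS.inv
  set K := LDL.lowerInv hi
  set d := LDL.diagEntries hi
  have hKu : IsUnit K := isUnit_of_invertible K
  have hd : (diagonal d).PosDef := by
    have h := posDef_conj hi hKu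
    have e := LDL.diag_eq_lowerInv_conj hi
    rw [LDL.diag] at e
    rw [e]
    simpa using h
  have hdp : ∀ i, 0 < d i := fun i => by simpa using hd.diag_pos (i := i)
  refine ⟨diagonal (fun i => (Real.sqrt (d i))⁻¹) * K, ?_, ?_, ?_⟩
  · intro i j hij
    rw [diagonal_mul, show K i j = 0 from LDL.lowerInv_triangular hi (i := i) (j := j) hij, mul_zero]
  · refine (Matrix.isUnit_diagonal.2 ?_).mul hKu
    rw [Pi.isUnit_iff]
    exact fun i => isUnit_iff_ne_zero.2 (inv_ne_zero (Real.sqrt_pos.2 (hdp i)).ne')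
  · set D := diagonal fun i => (Real.sqrt (d i))⁻¹
    have e : K * S⁻¹ * Kᵀ = diagonal d := by
      have e := LDL.diag_eq_lowerInv_conj hi
      rw [LDL.diag] at e
      simpa using e.symm
    have h1 : D * K * (S⁻¹ * (D * K)ᵀ) = 1 := by
      rw [transpose_mul, diagonal_transpose]
      calc D * K * (S⁻¹ * (Kᵀ * D)) = D * (K * S⁻¹ * Kᵀ) * D := by
            simp only [Matrix.mul_assoc]
        _ = 1 := by
            rw [e, diagonal_mul_diagonal, diagonal_mul_diagonal, ← diagonal_one]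
            congr 1
            funext i
            have := (Real.sqrt_pos.2 (hdp i)).ne'
            rw [show (Real.sqrt (d i))⁻¹ * d i * (Real.sqrt (d i))⁻¹ =
              d i / (Real.sqrt (d i) * Real.sqrt (d i)) by field_simp, Real.mul_self_sqrt
              (hdp i).le, div_self (hdp i).ne']
    rw [mul_eq_one_comm, Matrix.mul_assoc] at h1
    have h2 := congrArg (S * ·) h1
    simp only [Matrix.mul_one] at h2
    rwa [← Matrix.mul_assoc S, mul_nonsing_inv _ (isUnit_iff_ne_zero.2 hS.det_pos.ne'),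
      Matrix.one_mul] at h2

end Vale.Agent.P371.Cal
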